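import Vale.Agent.P275RR.Frame
import Vale.Agent.P275GC.Ex
import Vale.Agent.P275AD.Higgs
import Vale.Agent.P275RH.MkD

/-!
# P275, block RR: the statements used by the other blocks
-/

set_option linter.unusedSectionVars false

open scoped Topology ComplexConjugate ContDiff Matrix.Norms.Operator Manifold
open Set Filter Metric MeasureTheory Complex Module

noncomputable section

namespace Vale.Agent.P275RR

open Vale.Agent.P281Z.Hm Vale.Agent.P275GC Vale.Agent.P275GC.At Vale.Agent.P275NA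
open Vale.Agent.P275AD (MFR Ok cf_sec cf_inj exists_cf)

variable {C : Type} [TopologicalSpace C] [T2Space C]

theorem ev_ne [PreconnectedSpace C] {A : At C} {l : Co A ℂ} {s : Fam A ℂ} (h : A.Sec l s)
    (hs : A.Hl s) {i j : Fin A.N} {z w : ℂ} (hw : w ∈ ball (0 : ℂ) A.R) (h0 : s j w ≠ 0)
    (hz : z ∈ ball (0 : ℂ) A.R) : ∀ᶠ y in 𝓝[≠] z, s i y ≠ 0 :=
  not_frequently.1 fun a => h0 (h.eq_zero hs hz a j hw)

/-- meromorphic frames -/
theorem mfr [ConnectedSpace C] (A : At C) : MFR A := fun n g hg => by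
  obtain ⟨x⟩ : Nonempty C := inferInstance
  obtain ⟨m, h⟩ := frameM hg x
  obtain ⟨u, a, b, c⟩ := h m le_rfl
  obtain ⟨z0, p, q⟩ := exists_sg (A := A) x
  refine ⟨fun i z => (A.sg x x i z ^ (m + 1))⁻¹ • u i z, fun i z hz => ⟨fun r s => ?_, ?_⟩,
    fun i j z hz => nhdsWithin_le_nhds (eventually_of_mem (O_nhds hz) fun w d => ?_)⟩
  · exact ((an_sg x x i z).pow (m + 1)).meromorphicAt.inv.mul
      (an_ent (a.an hz i) r s).meromorphicAt
  · filter_upwards [ev_ne (A.sec_sg x) (hl_sg x x) p q hz (i := i), ev_ne (i := i)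
      (s := fun i z => (u i z).det) (l := fun i j z => (A.ox x x i j z ^ (m + 1)) ^ Fintype.card
        (Fin n) * (g i j z).det) (fun i j z d => by
          beta_reduce; rw [b i j z d, Matrix.det_smul, Matrix.det_mul, smul_eq_mul, mul_assoc])
        (fun i z d => (an_det (a.an d i)).differentiableAt.differentiableWithinAt) (pc_ball x)
        (by rw [c, Matrix.det_one]; exact one_ne_zero) hz] with w d e
    rw [Matrix.det_smul]
    exact mul_ne_zero (pow_ne_zero _ (inv_ne_zero (pow_ne_zero _ d))) e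
  · beta_reduce
    rw [b i j w d, A.sec_sg x i j w d, smul_eq_mul, mul_pow, smul_smul, Matrix.mul_smul, mul_inv,
      mul_right_comm, inv_mul_cancel₀ (pow_ne_zero _ ((A.cc_ox x).ne d)), one_mul]

variable [ChartedSpace ℂ C] [IsManifold 𝓘(ℂ) ω C]

/-- the `k`-differentials of the statement are the sections of `K^k` -/
def cfE {A : At C} (ok : Ok A) (k : ℕ) :
    P275ST.H0 C k ≃ₗ[ℂ] H0 A (ln A fun i j z => A.d i j z ^ k) :=
  LinearEquiv.ofBijective
    { toFun := fun b => ⟨_, cut_mem0 ((P275AD.mem_H0 ok).1 b.2) fun i j z a => cf_sec ok k b.1 i j z a⟩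
      map_add' := fun b c => Subtype.ext (funext₂ fun i z => by
        by_cases a : z ∈ ball (0 : ℂ) A.R <;> simp [cut, a, P275AD.cf, mul_add])
      map_smul' := fun r b => Subtype.ext (funext₂ fun i z => by
        by_cases a : z ∈ ball (0 : ℂ) A.R <;> simp [cut, a, P275AD.cf, mul_left_comm]) }
    ⟨fun b c h => Subtype.ext (cf_inj ok fun i z a => by
      rw [← cut_of (P275AD.cf A k b.1) a, ← cut_of (P275AD.cf A k c.1) a]
      exact congrFun₂ (congrArg Subtype.val h) i z), fun s => by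
      obtain ⟨b, h⟩ := exists_cf ok (k := k) (u := s.1) s.2.2.1
      exact ⟨⟨b, (P275AD.mem_H0 ok).2 fun i => (s.2.1 i).congr (h i)⟩, Subtype.ext
        ((nz_cut _).ext s.2.2.2 fun i z a => (cut_of _ a).trans (h i z a))⟩⟩

variable [CompactSpace C]

variable (C) in
theorem fd_H0 (k : ℕ) : FiniteDimensional ℂ (P275ST.H0 C k) := by
  obtain ⟨A, -, ok⟩ := exists_at (C := C)
  have := fin_H0 (cc_ln (A.cc_d.pow k))
  exact (cfE ok k).symm.finiteDimensional

variable (C) in
/-- the statement `FDB` -/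
theorem fd_base (n : ℕ) : FiniteDimensional ℂ (P275ST.Base C n) :=
  have := fd_H0 C
  inferInstance

/-- a meromorphic function with one pole -/
theorem merp : P275RH.MERP := fun C _ _ _ _ _ _ p => by
  obtain ⟨A, -, ok⟩ := exists_at (C := C)
  obtain ⟨m, h⟩ := exists_mer A p
  obtain ⟨f, s, a, b, c, d⟩ := h m le_rfl
  have t := (mem_tgt (i := ch A p)).2 (pc_ball p)
  have e : (fun w => f ((A.e (ch A p)).symm w)) =ᶠ[𝓝[≠] (pc A p)]
      fun z => (z - pc A p) ^ (-(m + 1 : ℕ) : ℤ) • s z := by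
    filter_upwards [nhdsWithin_le_nhds (isOpen_ball.mem_nhds (pc_ball p))] with w u
    rw [d w u, zpow_neg, zpow_natCast, smul_eq_mul, div_eq_inv_mul]
  have k : MeromorphicAt (fun w => f ((A.e (ch A p)).symm w)) (pc A p) :=
    (((analyticAt_id.sub analyticAt_const).meromorphicAt.zpow _).smul b.meromorphicAt).congr e.symm
  refine ⟨f, P275AD.pt_ind A fun i z u v => ?_, symm_pc (A := A) p ▸ (P275AD.Cmp.mer (ok _) t).1 k, ?_⟩
  · have w := P275AD.Cmp.bi (ok i) (mem_tgt.2 u)
    refine ((w.e2.symm ▸ a i z u v).comp w.a2).congr ?_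
    filter_upwards [((chartAt ℂ _).continuousAt_symm (P275AD.ctr_mem _)).eventually
      ((A.e i).open_source.mem_nhds (by rw [P275AD.symm_ctr]; exact map_tgt u))] with y r
    exact congrArg f ((A.e i).left_inv r)
  · rw [← symm_pc (A := A) p, ← P275AD.Cmp.ord (ok _) t, (meromorphicOrderAt_eq_int_iff k).2
      ⟨s, b, c.trans_ne one_ne_zero, e⟩]
    exact WithTop.coe_lt_coe.2 (by omega)

end Vale.Agent.P275RR
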