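import Vale.Agent.P275RR.Mod
import Vale.Agent.P275GC.Ox

/-!
# P275, block RR: meromorphic frames
-/

set_option linter.unusedSectionVars false

open scoped Topology ComplexConjugate ContDiff Matrix.Norms.Operator
open Set Filter Metric MeasureTheory Complex Module Bornology

noncomputable section

namespace Vale.Agent.P275RR

open Vale.Agent.P281Z.Hm Vale.Agent.P275GC Vale.Agent.P275GC.At Vale.Agent.P275NA

variable {C : Type} [TopologicalSpace C] {A : At C}
variable {F F' : Type} [NormedAddCommGroup F] [NormedSpace ℝ F] [NormedSpace ℂ F]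
  [IsScalarTower ℝ ℂ F] [NormedAddCommGroup F'] [NormedSpace ℝ F'] [NormedSpace ℂ F']
  [IsScalarTower ℝ ℂ F'] {i j : Fin A.N} {z : ℂ} {G : Co A (F →L[ℂ] F)} {l : Co A ℂ}
  {G' : Co A (F' →L[ℂ] F')} {φ : Fam A (F →L[ℂ] F')} {Z : Finset C} {x : C}

variable (A) in
/-- the twist by `m x` -/
def tx (x : C) (m : ℕ) (G : Co A (F →L[ℂ] F)) : Co A (F →L[ℂ] F) :=
  tw A (fun i j z => A.ox x x i j z ^ m) G

theorem cc_tx (hG : A.Cc G) (x : C) (m : ℕ) : A.Cc (tx A x m G) := cc_tw ((A.cc_ox x).pow m) hG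

theorem hom_sec {s : Fam A ℂ} (h : A.Sec l s) (hs : A.Hl s) (G : Co A (F →L[ℂ] F)) :
    Hom A G (tw A l G) fun i z => s i z • 1 :=
  ⟨fun i => (hs i).smul_const _, fun i j z a v => by
    simp only [tw_apply, _root_.smul_apply, one_apply_eq_self, map_smul, h i j z a, smul_smul,
      smul_eq_mul, mul_comm]⟩

theorem hom_tx (x : C) (m : ℕ) (G : Co A (F →L[ℂ] F)) :
    Hom A (tx A x m G) (tx A x (m + 1) G) fun i z => A.sg x x i z • 1 :=
  have h := hom_sec (A.sec_sg x) (hl_sg x x) (tx A x m G)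
  ⟨h.hol, fun i j z a v => (h.eq i j z a v).trans (by
    simp only [tx, tw_apply, smul_smul, pow_succ'])⟩

theorem sg_ch (x : C) : A.sg x x (ch A x) = fun z => z - pc A x := sg_mem (ch_src x)

theorem exists_sg (x : C) : ∃ z ∈ ball (0 : ℂ) A.R, A.sg x x (ch A x) z ≠ 0 := by
  obtain ⟨z, a, b⟩ := (Eventually.and (f := 𝓝[≠] (pc A x))
    (nhdsWithin_le_nhds (isOpen_ball.mem_nhds (pc_ball (A := A) x))) self_mem_nhdsWithin).exists
  exact ⟨z, a, by rw [sg_ch]; exact sub_ne_zero.2 b⟩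

/-- evaluation at a point of a chart -/
def ev (G : Co A (F →L[ℂ] F)) (i : Fin A.N) (z : ℂ) : H0 A G →ₗ[ℂ] F where
  toFun s := s.1 i z
  map_add' _ _ := rfl
  map_smul' _ _ := rfl

variable [T2Space C] [FiniteDimensional ℂ F] [FiniteDimensional ℂ F']

attribute [local instance] cplF

/-- the map on holomorphic sections -/
def Hom.map0 (h : Hom A G G' φ) : H0 A G →ₗ[ℂ] H0 A G' where
  toFun s := ⟨fun i z => φ i z (s.1 i z), fun i z a => (an_app (h.hol.an a i)
    (s.2.1.an a i)).differentiableAt.differentiableWithinAt, h.sv s.2.2.1, fun i z a => by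
      beta_reduce; rw [s.2.2.2 i z a, map_zero]⟩
  map_add' s t := Subtype.ext (funext₂ fun i z => map_add _ _ _)
  map_smul' c s := Subtype.ext (funext₂ fun i z => map_smul _ _ _)

theorem dg_tw (hl : A.Cc l) (hG : A.Cc G) :
    dg A (tw A l G) = finrank ℂ F * A.deg l + dg A G := by
  rw [dg, dg, ← deg_pow hl, ← deg_tens (hl.pow _) (cc_dt hG)]
  exact deg_congr (cc_dt (cc_tw hl hG)) ((hl.pow _).tens (cc_dt hG)) fun i j z _ => det_smul' _ _

theorem dg_tv : dg A (tv A F) = 0 :=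
  (deg_congr (cc_dt cc_tv) A.cc_one fun _ _ _ _ => det_one').trans deg_one

theorem dg_ln (hl : A.Cc l) : dg A (ln A l) = A.deg l := by
  rw [ln, dg_tw hl cc_tv, dg_tv]; simp

theorem dg_tx (hG : A.Cc G) (x : C) (m : ℕ) : dg A (tx A x m G) = finrank ℂ F * m + dg A G := by
  rw [tx, dg_tw ((A.cc_ox x).pow m) hG, deg_pow (A.cc_ox x), deg_ox, mul_one]

/-- division of holomorphic sections -/
theorem Hom.div0 {G' : Co A (F →L[ℂ] F)} {φ : Fam A (F →L[ℂ] F)} (h : Hom A G G' φ) (hG : A.Cc G)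
    (hG' : A.Cc G') (hZ : ∀ i, ∀ z ∈ ball (0 : ℂ) A.R, (A.e i).symm z ∉ Z → IsUnit (φ i z))
    (s : H0 A G') (t : C → ℂ → F) (h1 : ∀ x ∈ Z, AnalyticAt ℂ (t x) (pc A x))
    (h2 : ∀ x ∈ Z, ∀ᶠ z in 𝓝 (pc A x), s.1 (ch A x) z = φ (ch A x) z (t x z)) :
    ∃ u, h.map0 u = s := by
  obtain ⟨u, a, -⟩ := h.div (rc_of hG) hZ ⟨s.1, H0_le _ s.2⟩ t (fun x b => cd_an (h1 x b)) h2
  refine ⟨⟨u.1, (mem_ker_D hG).1 (h.bar.inj hZ ∞ ?_)⟩, Subtype.ext (congrArg Subtype.val a :)⟩
  rw [← h.D_map hG hG', a, map_zero]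
  exact (mem_ker_D hG').2 s.2

variable [PreconnectedSpace C]

theorem chi_tx (hG : A.Cc G) (x : C) (m : ℕ) :
    chi A (tx A x (m + 1) G) = chi A (tx A x m G) + finrank ℂ F ∧
      h1 A (tx A x (m + 1) G) ≤ h1 A (tx A x m G) := by
  obtain ⟨z, a, b⟩ := exists_sg (A := A) x
  obtain ⟨p, q⟩ := modif (cc_tx hG x m) (cc_tx hG x (m + 1)) (hom_tx x m G) a (i := ch A x) (by
    rw [det_smul', det_one', mul_one]; exact pow_ne_zero _ b)
  refine ⟨?_, q⟩
  rw [dg_tx hG, dg_tx hG] at p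
  have : (chi A (tx A x (m + 1) G) : ℝ) = chi A (tx A x m G) + finrank ℂ F := by
    push_cast at p; linarith
  exact_mod_cast this

theorem ev_surj (hG : A.Cc G) (x : C) (m : ℕ)
    (h : h1 A (tx A x (m + 1) G) = h1 A (tx A x m G)) :
    Function.Surjective (ev (tx A x (m + 1) G) (ch A x) (pc A x)) := by
  have := fin_H0 (cc_tx hG x m)
  have := fin_H0 (cc_tx hG x (m + 1))
  have k : LinearMap.ker (ev (tx A x (m + 1) G) (ch A x) (pc A x)) ≤
      LinearMap.range (hom_tx x m G).map0 := fun s a =>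
    (hom_tx x m G).div0 (Z := {x}) (cc_tx hG x m) (cc_tx hG x (m + 1)) (fun i z b c =>
      (isUnit_iff_det _).2 (by
        rw [det_smul', det_one', mul_one]
        exact pow_ne_zero _ fun e => c (Finset.mem_singleton.2 ((sg_eq_zero b).1 e)))) s
      (fun y => dslope (s.1 (ch A y)) (pc A y)) (fun y _ => an_dsl (s.2.1.an (pc_ball y) _))
      fun y b => Eventually.of_forall fun w => by
        obtain rfl := Finset.mem_singleton.1 b
        rw [sg_ch, _root_.smul_apply, one_apply_eq_self, sub_smul_dslope,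
          show s.1 (ch A y) (pc A y) = 0 from a, sub_zero]
  have k1 := (Submodule.finrank_mono k).trans (LinearMap.finrank_range_le _)
  have k2 := (ev (tx A x (m + 1) G) (ch A x) (pc A x)).finrank_range_add_finrank_ker
  have k3 := (chi_tx hG x m).1
  rw [chi, chi, h, h0, h0] at k3
  exact LinearMap.range_eq_top.1 (Submodule.eq_top_of_finrank_eq
    (le_antisymm (Submodule.finrank_le _) (by omega)))

theorem exists_h1 (hG : A.Cc G) (x : C) :
    ∃ m₀, ∀ m, m₀ ≤ m → h1 A (tx A x (m + 1) G) = h1 A (tx A x m G) := by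
  have a : Antitone fun m => h1 A (tx A x m G) := antitone_nat_of_succ_le fun m => (chi_tx hG x m).2
  obtain ⟨_, ⟨m₀, rfl⟩, b⟩ := wellFounded_lt.has_min (range fun m => h1 A (tx A x m G))
    (range_nonempty _)
  have c : ∀ m, m₀ ≤ m → h1 A (tx A x m G) = h1 A (tx A x m₀ G) := fun m d =>
    le_antisymm (a d) (not_lt.1 (b _ ⟨m, rfl⟩))
  exact ⟨m₀, fun m d => (c _ (d.trans m.le_succ)).trans (c m d).symm⟩

/-- **meromorphic frames**, with poles at `x` only -/
theorem frame (hG : A.Cc G) (x : C) : ∃ m₀, ∀ m, m₀ ≤ m → ∃ φ : Fam A (F →L[ℂ] F),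
    Hom A (tv A F) (tx A x (m + 1) G) φ ∧ φ (ch A x) (pc A x) = 1 := by
  obtain ⟨m₀, h⟩ := exists_h1 hG x
  refine ⟨m₀, fun m a => ?_⟩
  obtain ⟨ρ, e⟩ := (ev (tx A x (m + 1) G) (ch A x) (pc A x)).exists_rightInverse_of_surjective
    (LinearMap.range_eq_top.2 (ev_surj hG x m (h m a)))
  refine ⟨fun i z => LinearMap.toContinuousLinearMap (ev _ i z ∘ₗ ρ), ⟨fun i => ?_,
    fun i j z b v => (ρ v).2.2.1 i j z b⟩, ContinuousLinearMap.ext fun v => LinearMap.congr_fun e v⟩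
  let b := Module.finBasis ℂ F
  refine (DifferentiableOn.fun_sum (u := Finset.univ) fun k _ =>
    (ContinuousLinearMap.smulRightL ℂ F F (LinearMap.toContinuousLinearMap (b.coord k))
      ).differentiable.comp_differentiableOn ((ρ (b k)).2.1 i)).congr fun z _ => ?_
  ext v
  show (ev _ i z ∘ₗ ρ) v = _
  conv_lhs => rw [← b.sum_repr v, map_sum]
  simp [ev]

theorem tends_pc (x : C) : Tendsto (A.e (ch A x)) (𝓝[≠] x) (𝓝[≠] (pc A x)) :=
  tendsto_nhdsWithin_iff.2 ⟨((A.e _).continuousAt (ch_src x)).tendsto.mono_left nhdsWithin_le_nhds,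
    by
      filter_upwards [self_mem_nhdsWithin, nhdsWithin_le_nhds
        ((A.e _).open_source.mem_nhds (ch_src x))] with y a b c
      exact a ((A.e _).injOn b (ch_src x) c)⟩

/-- **a meromorphic function whose only pole is `x`**, of any large order -/
theorem exists_mer (A : At C) (x : C) : ∃ m₀, ∀ m, m₀ ≤ m → ∃ (f : C → ℂ) (s : ℂ → ℂ),
    (∀ i, ∀ z ∈ ball (0 : ℂ) A.R, (A.e i).symm z ≠ x →
      AnalyticAt ℂ (fun w => f ((A.e i).symm w)) z) ∧ AnalyticAt ℂ s (pc A x) ∧ s (pc A x) = 1 ∧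
    ∀ z ∈ ball (0 : ℂ) A.R, f ((A.e (ch A x)).symm z) = s z / (z - pc A x) ^ (m + 1) := by
  obtain ⟨m₀, h⟩ := frame (A := A) (cc_tv (F := ℂ)) x
  refine ⟨m₀, fun m a => ?_⟩
  obtain ⟨φ, p, q⟩ := h m a
  have an : ∀ i, ∀ z ∈ ball (0 : ℂ) A.R, AnalyticAt ℂ (fun w => φ i w 1) z := fun i z b =>
    an_app (p.hol.an b i) analyticAt_const
  have fn : A.Fn fun i z => φ i z 1 / A.sg x x i z ^ (m + 1) := fun i j z b => by
    beta_reduce
    rw [show φ i z 1 = A.ox x x i j z ^ (m + 1) * φ j (A.tr i j z) 1 from p.eq i j z b 1,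
      A.sec_sg x i j z b, smul_eq_mul, mul_pow,
      mul_div_mul_left _ _ (pow_ne_zero _ ((A.cc_ox x).ne b))]
  refine ⟨A.gl _, fun w => φ (ch A x) w 1, fun i z b c => ((an i z b).div
    ((an_sg x x i z).pow (m + 1)) (pow_ne_zero _ fun e => c ((sg_eq_zero b).1 e))).congr ?_,
    an _ _ (pc_ball x), congrArg (fun T : ℂ →L[ℂ] ℂ => T 1) q, fun z b => (fn.pl_gl b).trans (by rw [sg_ch])⟩
  filter_upwards [isOpen_ball.mem_nhds b] with w d using (fn.pl_gl d).symm

/-- the statement `MerP A x` -/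
theorem merP (A : At C) (x : C) : ∃ f : C → ℂ, (∀ i, ∀ z ∈ ball (0 : ℂ) A.R, (A.e i).symm z ≠ x →
    AnalyticAt ℂ (fun w => f ((A.e i).symm w)) z) ∧ Tendsto f (𝓝[≠] x) (cobounded ℂ) := by
  obtain ⟨m, h⟩ := exists_mer A x
  obtain ⟨f, s, a, b, c, d⟩ := h m le_rfl
  refine ⟨f, a, ?_⟩
  have t : Tendsto (fun z => (z - pc A x) ^ (m + 1) / s z) (𝓝[≠] (pc A x)) (𝓝[≠] 0) := by
    have e := b.continuousAt.eventually_ne (c.trans_ne one_ne_zero)
    refine tendsto_nhdsWithin_iff.2 ⟨Tendsto.mono_left ?_ nhdsWithin_le_nhds, ?_⟩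
    · have : ContinuousAt (fun z => (z - pc A x) ^ (m + 1) / s z) (pc A x) :=
        ContinuousAt.div (by fun_prop) b.continuousAt e.self_of_nhds
      simpa using this.tendsto
    · filter_upwards [self_mem_nhdsWithin, nhdsWithin_le_nhds e] with w p q
      exact div_ne_zero (pow_ne_zero _ (sub_ne_zero.2 p)) q
  refine ((tendsto_inv₀_nhdsNE_zero.comp t).comp (tends_pc x)).congr' ?_
  filter_upwards [nhdsWithin_le_nhds ((A.e _).open_source.mem_nhds (ch_src x))] with y p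
  have := d _ (map_src p)
  rw [(A.e _).left_inv p] at this
  rw [this]
  exact inv_div _ _

section mat
variable {n : Type} [Fintype n] [DecidableEq n] {g : Co A (Mx n)}

/-- matrices as operators -/
def mE (n : Type) [Fintype n] [DecidableEq n] : Mx n ≃L[ℂ] ((n → ℂ) →L[ℂ] (n → ℂ)) :=
  (Matrix.toLin'.trans LinearMap.toContinuousLinearMap).toContinuousLinearEquiv

theorem mE_apply (M : Mx n) (v : n → ℂ) : mE n M v = M.mulVec v := rfl

theorem mE_one : mE n 1 = 1 := ContinuousLinearMap.ext Matrix.one_mulVec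

theorem mE_mul (M N : Mx n) : mE n (M * N) = mE n M * mE n N :=
  ContinuousLinearMap.ext fun v => (Matrix.mulVec_mulVec v M N).symm

theorem det_mE (M : Mx n) : (mE n M).det = M.det := LinearMap.det_toLin' M

variable (A) in
/-- the bundle of a matrix cocycle -/
def mc (g : Co A (Mx n)) : Co A ((n → ℂ) →L[ℂ] (n → ℂ)) := fun i j z => mE n (g i j z)

theorem cc_mc (hg : A.Cc g) : A.Cc (mc A g) where
  hol i j := (mE n).differentiable.comp_differentiableOn (hg.hol i j)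
  one i z h := by rw [mc, hg.one i z h, mE_one]
  mul i j k z h h' := by rw [mc, hg.mul i j k z h h', mE_mul, mc, mc]

theorem dg_mc (g : Co A (Mx n)) : dg A (mc A g) = A.degM g :=
  congrArg A.deg (funext₃ fun _ _ _ => det_mE _)

/-- **meromorphic frames**, matrix form -/
theorem frameM (hg : A.Cc g) (x : C) : ∃ m₀, ∀ m, m₀ ≤ m → ∃ u : Fam A (Mx n), A.Hl u ∧
    (∀ i j, ∀ z ∈ A.O i j, u i z = A.ox x x i j z ^ (m + 1) • (g i j z * u j (A.tr i j z))) ∧
    u (ch A x) (pc A x) = 1 := by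
  obtain ⟨m₀, h⟩ := frame (cc_mc hg) x
  refine ⟨m₀, fun m a => ?_⟩
  obtain ⟨φ, p, q⟩ := h m a
  refine ⟨fun i z => (mE n).symm (φ i z), fun i =>
    (mE n).symm.differentiable.comp_differentiableOn (p.hol i), fun i j z b => (mE n).injective ?_,
    (mE n).symm_apply_eq.2 (q.trans mE_one.symm)⟩
  rw [map_smul, mE_mul, (mE n).apply_symm_apply, (mE n).apply_symm_apply]
  exact ContinuousLinearMap.ext (p.eq i j z b)

end mat

end Vale.Agent.P275RR
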