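import Vale.Agent.P275RR.Defs
import Vale.Agent.P275FR.Ext
import Vale.Agent.P275GC.Int

/-!
# P275, block RR: cocycles, extension by zero
-/

set_option linter.unusedSectionVars false

open scoped Topology ComplexConjugate ContDiff
open Set Filter Metric MeasureTheory Complex Module

noncomputable section

namespace Vale.Agent.P275RR

open Vale.Agent.P281Z.Hm Vale.Agent.P275GC Vale.Agent.P275GC.At

variable {C : Type} [TopologicalSpace C] {A : At C}
variable {F F' : Type} [NormedAddCommGroup F] [NormedSpace ℝ F] [NormedSpace ℂ F]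
  [IsScalarTower ℝ ℂ F] [NormedAddCommGroup F'] [NormedSpace ℝ F'] [NormedSpace ℂ F']
  [IsScalarTower ℝ ℂ F'] {i j : Fin A.N} {z : ℂ} {G : Co A (F →L[ℂ] F)} {l : Co A ℂ}

/-- evaluation as a real bilinear map -/
def apL (F F' : Type) [NormedAddCommGroup F] [NormedSpace ℝ F] [NormedSpace ℂ F]
    [IsScalarTower ℝ ℂ F] [NormedAddCommGroup F'] [NormedSpace ℝ F'] [NormedSpace ℂ F']
    [IsScalarTower ℝ ℂ F'] : (F →L[ℂ] F') →L[ℝ] F →L[ℝ] F' :=
  ContinuousLinearMap.restrictScalarsL ℂ F F' ℝ ℝ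

theorem cd_app {k : WithTop ℕ∞} {g : ℂ → F →L[ℂ] F'} {s : ℂ → F} (hg : ContDiffAt ℝ k g z)
    (hs : ContDiffAt ℝ k s z) : ContDiffAt ℝ k (fun w => g w (s w)) z :=
  ((apL F F').contDiff.contDiffAt.comp z hg).clm_apply hs

theorem df_app {g : ℂ → F →L[ℂ] F'} {s : ℂ → F} (hg : DifferentiableAt ℝ g z)
    (hs : DifferentiableAt ℝ s z) : DifferentiableAt ℝ (fun w => g w (s w)) z :=
  ((apL F F').differentiableAt.comp z hg).clm_apply hs

theorem wb_app {g : ℂ → F →L[ℂ] F'} {s : ℂ → F} (hg : DifferentiableAt ℝ g z)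
    (hs : DifferentiableAt ℝ s z) :
    wb 1 (fun w => g w (s w)) z = wb 1 g z (s z) + g z (wb 1 s z) :=
  wb_bil (apL F F') (fun _ _ _ => rfl) (fun c x y => x.map_smul c y) hg hs 1

theorem wb_app_hol {g : ℂ → F →L[ℂ] F'} {s : ℂ → F} (hg : DifferentiableAt ℂ g z)
    (hs : DifferentiableAt ℝ s z) : wb 1 (fun w => g w (s w)) z = g z (wb 1 s z) := by
  rw [wb_app (hg.restrictScalars ℝ) hs, wb_hol hg, _root_.zero_apply, zero_add]

theorem hol_of_db {s : ℂ → F} (hs : DifferentiableAt ℝ s z) (h : wb 1 s z = 0) :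
    DifferentiableAt ℂ s z := hol_of_wb hs fun v => by
  have := wb_smulv v s z (1 : ℂ)
  rwa [smul_eq_mul, mul_one, h, smul_zero] at this

theorem cut_of {F : Type} [Zero F] (s : Fam A F) (h : z ∈ ball (0 : ℂ) A.R) :
    cut A s i z = s i z := indicator_of_mem h _

theorem cut_ev {F : Type} [Zero F] (s : Fam A F) (h : z ∈ ball (0 : ℂ) A.R) :
    cut A s i =ᶠ[𝓝 z] s i := eventually_of_mem (isOpen_ball.mem_nhds h) fun _ a => cut_of s a

theorem nz_cut {F : Type} [Zero F] (s : Fam A F) : Nz A (cut A s) :=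
  fun _ _ h => indicator_of_notMem h _

theorem Nz.ext {F : Type} [Zero F] {s t : Fam A F} (hs : Nz A s) (ht : Nz A t)
    (h : ∀ i, ∀ z ∈ ball (0 : ℂ) A.R, s i z = t i z) : s = t := by
  funext i z
  by_cases a : z ∈ ball (0 : ℂ) A.R
  · exact h i z a
  · rw [hs i z a, ht i z a]

theorem SV.cut {s : Fam A F} (h : SV A G s) : SV A G (cut A s) := fun i j z a => by
  rw [cut_of s a.1, cut_of s (tr_ball a), h i j z a]

theorem cut_mem {k : WithTop ℕ∞} {s : Fam A F} (h1 : A.Sm k s) (h : SV A G s) :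
    cut A s ∈ Γ A k G := ⟨fun i => (h1 i).congr fun _ a => cut_of s a, h.cut, nz_cut s⟩

theorem cut_mem0 {s : Fam A F} (h1 : A.Hl s) (h : SV A G s) : cut A s ∈ H0 A G :=
  ⟨fun i => (h1 i).congr fun _ a => cut_of s a, h.cut, nz_cut s⟩

theorem SV.ext {s t : Fam A F} (hs : SV A G s) (ht : SV A G t)
    (e : ∀ i z, ‖z‖ < 1 → s i z = t i z) (h : z ∈ ball (0 : ℂ) A.R) : s i z = t i z :=
  ext_unit (T := fun i j z y => G i j z y) hs ht e h

theorem Γ_mono {k k' : WithTop ℕ∞} (h : k' ≤ k) : Γ A k G ≤ Γ A k' G :=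
  fun _ a => ⟨a.1.of_le h, a.2⟩

theorem cc_tw (hl : A.Cc l) (hG : A.Cc G) : A.Cc (tw A l G) where
  hol i j := (hl.hol i j).smul (hG.hol i j)
  one i z h := by rw [tw, hl.one i z h, hG.one i z h, one_smul]
  mul i j k z h h' := by
    rw [tw, tw, tw, hl.mul i j k z h h', hG.mul i j k z h h', smul_mul_smul_comm]

theorem cc_tv : A.Cc (tv A F) := A.cc_one

theorem cc_ln (hl : A.Cc l) : A.Cc (ln A l) := cc_tw hl cc_tv

/-- the dual bundle -/
def du (G : Co A (F →L[ℂ] F)) : Co A ((F →L[ℂ] ℂ) →L[ℂ] (F →L[ℂ] ℂ)) := fun i j z =>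
  (ContinuousLinearMap.compL ℂ F F ℂ).flip (G j i (A.tr i j z))

theorem cc_du (hG : A.Cc G) : A.Cc (du G) where
  hol i j := (ContinuousLinearMap.compL ℂ F F ℂ).flip.differentiable.comp_differentiableOn
      ((hG.hol j i).comp (A.hol i j) fun _ h => tr_mem h)
  one i z h := by
    rw [du, tr_self h, hG.one i z h]
    ext y x
    rfl
  mul i j k z h h' := by
    rw [du, du, du, tr_tr h, hG.mul k j i _ (tr_O h' h) (tr_mem h'), tr_tr h']
    ext y x
    rfl

theorem cc_dk (hG : A.Cc G) : A.Cc (dk A G) := cc_tw (G := du G) A.cc_d (cc_du hG)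

theorem sd_dk (hG : A.Cc G) : SD A (ContinuousLinearMap.id ℂ (F →L[ℂ] ℂ)) (dk A G) G where
  bij := Function.bijective_id
  eq i j z h y x := by
    have := congrArg (fun L : F →L[ℂ] F => L x) (hG.inv' h)
    simp only [mul_apply_eq_comp, one_apply_eq_self] at this
    simp [dk, this]

theorem Rc.tw (hG : Rc A G) (h1 : ∀ i j, ∀ z ∈ A.O i j, ContDiffAt ℝ ∞ (l i j) z)
    (h2 : ∀ i, ∀ z ∈ ball (0 : ℂ) A.R, l i i z = 1)
    (h3 : ∀ i j k, ∀ z ∈ A.O i j, z ∈ A.O i k → l i k z = l i j z * l j k (A.tr i j z)) :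
    Rc A (tw A l G) where
  sm i j z h := (h1 i j z h).smul (hG.sm i j z h)
  one i z h := by rw [P275RR.tw, h2 i z h, hG.one i z h, one_smul]
  mul i j k z h h' := by
    rw [P275RR.tw, P275RR.tw, P275RR.tw, h3 i j k z h h', hG.mul i j k z h h', smul_mul_smul_comm]

theorem Rc.bar (hG : Rc A G) : Rc A (bar A G) :=
  hG.tw (fun _ _ _ h => cd_conj (cd_an (an_d h)))
    (fun i z h => by rw [A.cc_d.one i z h, map_one])
    fun i j k z h h' => by rw [A.cc_d.mul i j k z h h', map_mul]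

theorem bar_apply (x : F) : bar A G i j z x = conj (A.d i j z) • G i j z x := rfl

theorem tw_apply (x : F) : tw A l G i j z x = l i j z • G i j z x := rfl

theorem ln_apply (x : ℂ) : ln A l i j z x = l i j z * x := rfl

section complete
variable [CompleteSpace F]

theorem rc_of (hG : A.Cc G) : Rc A G := ⟨fun _ _ _ h => cd_an (hG.an h), hG.one, hG.mul⟩

theorem H0_le (k : WithTop ℕ∞) : H0 A G ≤ Γ A k G := fun _ a =>
  ⟨fun i _ h => (cd_an (a.1.an h i)).contDiffWithinAt, a.2⟩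

theorem wb_tr (hG : A.Cc G) {u : ℂ → F} (h : z ∈ A.O i j)
    (hu : DifferentiableAt ℝ u (A.tr i j z)) :
    wb 1 (fun w => G i j w (u (A.tr i j w))) z = bar A G i j z (wb 1 u (A.tr i j z)) := by
  rw [wb_app_hol (s := fun w => u (A.tr i j w)) (hG.an h).differentiableAt
    (hu.comp z ((df_tr h).restrictScalars ℝ)), bar_apply, ← map_smul]
  exact congrArg _ (P275FR.db_comp hu (df_tr h))

theorem sv_db (hG : A.Cc G) {s : Fam A F} (h1 : A.Sm 1 s) (h : SV A G s) :
    SV A (bar A G) fun i => wb 1 (s i) := fun i j z a => by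
  rw [← wb_tr hG a ((h1.at (tr_ball a) j).differentiableAt one_ne_zero)]
  exact wb_congr (eventually_of_mem (O_nhds a) (h i j)) 1

theorem db_mem (hG : A.Cc G) {s : Fam A F} (h : s ∈ Γ A ∞ G) :
    cut A (fun i => wb 1 (s i)) ∈ Γ A ∞ (bar A G) :=
  cut_mem (fun i _ a => (P275FR.sm_db (h.1.at a i)).contDiffWithinAt)
    (sv_db hG (h.1.of_le (by simp)) h.2.1)

theorem isDb_cut (s : Fam A F) : IsDb A s (cut A fun i => wb 1 (s i)) :=
  fun _ _ a => (cut_of (fun i => wb 1 (s i)) a).symm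

theorem mem_H0 {s : Fam A F} (h : s ∈ Γ A 1 G) (h0 : IsDb A s 0) : s ∈ H0 A G :=
  ⟨fun i z a => (hol_of_db ((h.1.at a i).differentiableAt one_ne_zero)
    (h0 i z a)).differentiableWithinAt, h.2⟩

theorem isDb_H0 {s : Fam A F} (h : s ∈ H0 A G) : IsDb A s 0 :=
  fun i _ a => wb_hol (h.1.an a i).differentiableAt 1

end complete

theorem SV.sm_of_unit {k : ℕ∞} (hG : Rc A G) {s : Fam A F} (h : SV A G s)
    (h1 : ∀ i z, ‖z‖ < 1 → ContDiffAt ℝ k (s i) z) : A.Sm k s := fun i z a => by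
  obtain ⟨j, b, c⟩ := ex_unit a i
  exact ((cd_app ((hG.sm i j z b).of_le (mod_cast le_top)) ((h1 j _ c).comp z
    (cd_an (an_tr b)))).congr_of_eventuallyEq
      (eventually_of_mem (O_nhds b) (h i j))).contDiffWithinAt

/-! ### extension by zero -/

variable {u v : ℂ → F} {K : Set ℂ}

theorem ex_O (h : z ∈ A.O i j) : ex A G j u i z = G i j z (u (A.tr i j z)) := indicator_of_mem h _

theorem ex_not (h : z ∉ A.O i j) : ex A G j u i z = 0 := indicator_of_notMem h _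

theorem nz_ex : Nz A (ex A G j u) := fun _ _ h => ex_not fun a => h a.1

theorem ex_self (hG : Rc A G) (h : z ∈ ball (0 : ℂ) A.R) : ex A G j u j z = u z := by
  rw [ex_O (O_self h), hG.one j z h, tr_self h, one_apply_eq_self]

theorem sv_ex (hG : Rc A G) : SV A G (ex A G j u) := fun i k z h => by
  by_cases a : z ∈ A.O i j
  · rw [ex_O a, ex_O (tr_O h a), hG.mul i k j z h a, tr_tr h, mul_apply_eq_comp]
  · rw [ex_not a, ex_not fun b => a (O_of_tr h b), map_zero]

theorem ex_congr (h : ∀ z ∈ ball (0 : ℂ) A.R, u z = v z) : ex A G j u = ex A G j v := by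
  funext i z
  by_cases a : z ∈ A.O i j
  · rw [ex_O a, ex_O a, h _ (tr_ball a)]
  · rw [ex_not a, ex_not a]

theorem ex_add : ex A G j (fun z => u z + v z) = ex A G j u + ex A G j v := by
  funext i z
  by_cases a : z ∈ A.O i j
  · simp only [Pi.add_apply, ex_O a, map_add]
  · simp only [Pi.add_apply, ex_not a, add_zero]

theorem ex_smul (c : ℂ) : ex A G j (fun z => c • u z) = c • ex A G j u := by
  funext i z
  by_cases a : z ∈ A.O i j
  · simp only [Pi.smul_apply, ex_O a, map_smul]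
  · simp only [Pi.smul_apply, ex_not a, smul_zero]

theorem sum_ex {s : Fam A F} (h : SV A G s) (a : z ∈ ball (0 : ℂ) A.R) :
    ∑ j, ex A G j (fun w => (A.χ j w : ℂ) • s j w) i z = s i z := by
  have e : ∀ j, ex A G j (fun w => (A.χ j w : ℂ) • s j w) i z = (A.φ j i z : ℂ) • s i z := fun j => by
    by_cases b : z ∈ A.O i j
    · rw [ex_O b, map_smul, ← h i j z b, φ_tr b]
    · rw [ex_not b, φ_not a b, ofReal_zero, zero_smul]
  simp only [e, ← Finset.sum_smul, ← ofReal_sum, sum_φ, ofReal_one, one_smul]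

variable [T2Space C]

theorem ev_ind {E : Type} [Zero E] {f : ℂ → E} (hK : IsCompact K) (hR : K ⊆ ball 0 A.R)
    (h0 : ∀ z ∈ A.O i j, A.tr i j z ∉ K → f z = 0) (h : z ∈ ball (0 : ℂ) A.R)
    (h' : z ∉ A.O i j) : (A.O i j).indicator f =ᶠ[𝓝 z] fun _ => 0 := by
  filter_upwards [ev_off hK hR h (off_of_not hR h h')] with w a
  by_cases b : w ∈ A.O i j
  · rw [indicator_of_mem b, h0 w b fun c => a ⟨_, c, symm_tr b⟩]
  · exact indicator_of_notMem b _

theorem ev_ind' {E : Type} [Zero E] {f : ℂ → E} (h : z ∈ A.O i j) :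
    (A.O i j).indicator f =ᶠ[𝓝 z] f :=
  eventually_of_mem (O_nhds h) fun _ a => indicator_of_mem a _

theorem cd_ind {E : Type} [NormedAddCommGroup E] [NormedSpace ℝ E] {k : WithTop ℕ∞} {f : ℂ → E}
    (hK : IsCompact K) (hR : K ⊆ ball 0 A.R) (h0 : ∀ z ∈ A.O i j, A.tr i j z ∉ K → f z = 0)
    (hf : ∀ z ∈ A.O i j, ContDiffAt ℝ k f z) :
    ContDiffOn ℝ k ((A.O i j).indicator f) (ball 0 A.R) := fun z h => by
  by_cases a : z ∈ A.O i j
  · exact ((hf z a).congr_of_eventuallyEq (ev_ind' a)).contDiffWithinAt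
  · exact (contDiffAt_const.congr_of_eventuallyEq (ev_ind hK hR h0 h a)).contDiffWithinAt

theorem ex_mem {k : ℕ∞} (hG : Rc A G) (hK : IsCompact K) (hR : K ⊆ ball 0 A.R)
    (h0 : ∀ z ∈ ball (0 : ℂ) A.R, z ∉ K → u z = 0) (hu : ContDiffOn ℝ k u (ball 0 A.R)) :
    ex A G j u ∈ Γ A k G :=
  ⟨fun i => cd_ind hK hR (fun _ a b => by rw [h0 _ (tr_ball a) b, map_zero]) fun z a =>
    cd_app ((hG.sm i j z a).of_le (mod_cast le_top))
      ((hu.contDiffAt (isOpen_ball.mem_nhds (tr_ball a))).comp z (cd_an (an_tr a))),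
    sv_ex hG, nz_ex⟩

theorem db_ex [CompleteSpace F] (hG : A.Cc G) (hK : IsCompact K) (hR : K ⊆ ball 0 A.R)
    (h0 : ∀ z ∈ ball (0 : ℂ) A.R, z ∉ K → u z = 0) (hu : ContDiffOn ℝ 1 u (ball 0 A.R)) :
    IsDb A (ex A G j u) (ex A (bar A G) j (wb 1 u)) := fun i z h => by
  by_cases a : z ∈ A.O i j
  · rw [ex_O a, ← wb_tr hG a ((hu.contDiffAt (isOpen_ball.mem_nhds (tr_ball a))).differentiableAt
      one_ne_zero)]
    exact wb_congr (ev_ind' a) 1
  · rw [ex_not a, ← wb_const (0 : F) 1 z]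
    exact wb_congr (ev_ind hK hR (fun _ a b => by rw [h0 _ (tr_ball a) b, map_zero]) h a) 1

end Vale.Agent.P275RR
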