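import Vale.Agent.P275RR.Serre
import Vale.Agent.P275KI.Sct

/-!
# P275, block RR: bounded solution operators of `∂̄`
-/

set_option linter.unusedSectionVars false

open scoped Topology ComplexConjugate ContDiff
open Set Filter Metric MeasureTheory Complex Module

noncomputable section

namespace Vale.Agent.P275RR

open Vale.Agent.P281Z.Hm Vale.Agent.P275GC Vale.Agent.P275GC.At Vale.Agent.P275NA
open Vale.Agent.P275FR (K3 lf rt p1 p1_le cont_p1 p1_rt cont_lf lf_val rt_of)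
open Vale.Agent.P275MO (Sct Slv DOL)
open Vale.Agent.P275KI (WD fm_ct fm_sv fm_add fm_smul fm_zero fm_sub mk fm_mk_of mk_fm sct_ext
  le_norm norm_le fm_unit wd_iff wd_fm wa_of_wk wd_hl wd_sm slv_uni)

theorem exists_ginv {U W : Type} [AddCommGroup U] [Module ℂ U] [AddCommGroup W] [Module ℂ W]
    (g : U →ₗ[ℂ] W) : ∃ τ : W →ₗ[ℂ] U, ∀ u, g (τ (g u)) = g u := by
  obtain ⟨a, ha⟩ := g.rangeRestrict.exists_rightInverse_of_surjective g.range_rangeRestrict
  obtain ⟨b, hb⟩ := (LinearMap.range g).subtype.exists_leftInverse_of_injective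
    (Submodule.ker_subtype _)
  refine ⟨a ∘ₗ b, fun u => ?_⟩
  have := congrArg Subtype.val (LinearMap.congr_fun ha (b (g u)))
  exact this.trans (congrArg Subtype.val (LinearMap.congr_fun hb ⟨g u, u, rfl⟩))

theorem abs_slv0 {Z Y W : Type} [NormedAddCommGroup Z] [NormedSpace ℂ Z] [NormedAddCommGroup Y]
    [NormedSpace ℂ Y] [NormedAddCommGroup W] [NormedSpace ℂ W] [FiniteDimensional ℂ W]
    (X : Submodule ℂ Z) (Gr : Submodule ℂ (X × Y)) (Sm : Submodule ℂ Y)
    (hd : ∀ f, ∃ u ∈ Sm, ∃ s, (s, f - u) ∈ Gr)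
    (L : Y →L[ℂ] W) (Q : Y →L[ℂ] Z) (hQ : IsCompactOperator Q) (hX : IsClosed (X : Set Z))
    (h : ∀ f, L f = 0 → ∃ s : X, (s, f) ∈ Gr ∧ s = Q f)
    (hf : FiniteDimensional ℂ (Gr.comap (LinearMap.inl ℂ X Y))) :
    ∃ (S : Y →L[ℂ] X) (π : Y →L[ℂ] Y) (p : X →L[ℂ] X), IsCompactOperator S ∧
      FiniteDimensional ℂ (LinearMap.range π.toLinearMap) ∧
      FiniteDimensional ℂ (LinearMap.range p.toLinearMap) ∧ (∀ f, π f ∈ Sm) ∧
      (∀ f, π (π f) = π f) ∧ (∀ u, p (p u) = p u) ∧ (∀ u, (p u, 0) ∈ Gr) ∧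
      (∀ f, (S f, f - π f) ∈ Gr) ∧ ∀ u f, (u, f) ∈ Gr → π f = 0 ∧ u = S f + p u := by
  let g0 : Gr →ₗ[ℂ] W := L.toLinearMap ∘ₗ LinearMap.snd ℂ X Y ∘ₗ Gr.subtype
  let q := (LinearMap.range g0).mkQ
  obtain ⟨τ0, h0⟩ := exists_ginv g0
  obtain ⟨τ1, h1⟩ := exists_ginv (q ∘ₗ L.toLinearMap ∘ₗ Sm.subtype)
  obtain ⟨p, hp⟩ := Submodule.ClosedComplemented.of_finiteDimensional
    (Gr.comap (LinearMap.inl ℂ X Y))
  let π : Y →L[ℂ] Y := LinearMap.toContinuousLinearMap (Sm.subtype ∘ₗ τ1 ∘ₗ q) ∘L L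
  let a : Y →L[ℂ] X × Y := LinearMap.toContinuousLinearMap (Gr.subtype ∘ₗ τ0) ∘L L ∘L (1 - π)
  let T : Y →L[ℂ] Y := 1 - π - ContinuousLinearMap.snd ℂ X Y ∘L a
  have e1 : ∀ f, q (L (π f)) = q (L f) := fun f => by
    obtain ⟨u, b, s, c⟩ := hd f
    have c' : q (L u) = q (L f) := (sub_eq_zero.1 ((map_sub q _ _).symm.trans
      ((Submodule.Quotient.mk_eq_zero _).2 ⟨⟨_, c⟩, map_sub L f u⟩))).symm
    have := h1 ⟨u, b⟩
    simp only [LinearMap.comp_apply, Submodule.subtype_apply, ContinuousLinearMap.coe_coe,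
      c'] at this
    exact this
  have e2 : ∀ f, L (T f) = 0 := fun f => by
    obtain ⟨u, b⟩ : L (f - π f) ∈ LinearMap.range g0 := (Submodule.Quotient.mk_eq_zero _).1 (by
      show q _ = 0
      rw [map_sub, map_sub, e1, sub_self])
    have := h0 u
    rw [b] at this
    exact (map_sub L _ _).trans (sub_eq_zero.2 this.symm)
  let S1 : Y →L[ℂ] X := (Q ∘L T).codRestrict X fun f => by
    obtain ⟨s, -, b⟩ := h _ (e2 f)
    exact (b ▸ s.2 : Q (T f) ∈ X)
  let S2 := S1 + ContinuousLinearMap.fst ℂ X Y ∘L a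
  have e3 : ∀ f, (S2 f, f - π f) ∈ Gr := fun f => by
    obtain ⟨s, b, c⟩ := h _ (e2 f)
    have := add_mem b (τ0 (L (f - π f))).2
    rw [show s = S1 f from Subtype.ext c] at this
    convert this using 1
    exact Prod.ext rfl (sub_add_cancel _ _).symm
  let p' : X →L[ℂ] X := Submodule.subtypeL _ ∘L p
  have e4 : ∀ u, (u, 0) ∈ Gr → p' u = u := fun u b => congrArg Subtype.val (hp ⟨u, b⟩)
  have e5 : ∀ u, (p' u, 0) ∈ Gr := fun u => (p u).2
  refine ⟨(1 - p') ∘L S2, π, p', IsCompactOperator.clm_comp (IsCompactOperator.add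
    ((hQ.comp_clm T).codRestrict _ hX) ?_) _, ?_, ?_, fun f => (τ1 _).2,
    fun f => congrArg (fun w => (τ1 w).1) (e1 f), fun u => e4 _ (e5 u), e5, fun f => ?_,
    fun u f b => ?_⟩
  · have := FiniteDimensional.proper ℂ W
    exact ((isCompactOperator_of_locallyCompactSpace_dom (L ∘L (1 - π))).clm_comp
      (LinearMap.toContinuousLinearMap (Gr.subtype ∘ₗ τ0))).clm_comp (ContinuousLinearMap.fst ℂ X Y)
  · exact Submodule.finiteDimensional_of_le
      (LinearMap.range_comp_le_range L.toLinearMap (Sm.subtype ∘ₗ τ1 ∘ₗ q))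
  · exact Submodule.finiteDimensional_of_le
      (LinearMap.range_comp_le_range p.toLinearMap (Submodule.subtype _))
  · simpa using sub_mem (e3 f) (e5 (S2 f))
  · have c : π f = 0 := by
      have : q (L f) = 0 := (Submodule.Quotient.mk_eq_zero _).2 ⟨⟨_, b⟩, rfl⟩
      show (τ1 (q (L f))).1 = 0
      rw [this, map_zero]; rfl
    have d := e4 (u - S2 f) (by simpa [c] using sub_mem b (e3 f))
    refine ⟨c, ?_⟩
    rw [map_sub] at d
    show u = S2 f - p' (S2 f) + p' u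
    rw [sub_add, ← neg_sub (p' u), d]
    abel

theorem abs_slv {Z Y W : Type} [NormedAddCommGroup Z] [NormedSpace ℂ Z] [NormedAddCommGroup Y]
    [NormedSpace ℂ Y] [NormedAddCommGroup W] [NormedSpace ℂ W] [FiniteDimensional ℂ W]
    (X : Submodule ℂ Z) (Gr : Submodule ℂ (X × Y)) (Sm : Submodule ℂ Y) (hd : Dense (Sm : Set Y))
    (L : Y →L[ℂ] W) (Q : Y →L[ℂ] Z) (hQ : IsCompactOperator Q) (hX : IsClosed (X : Set Z))
    (h : ∀ f, L f = 0 → ∃ s : X, (s, f) ∈ Gr ∧ s = Q f)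
    (hf : FiniteDimensional ℂ (Gr.comap (LinearMap.inl ℂ X Y))) :
    ∃ (S : Y →L[ℂ] X) (π : Y →L[ℂ] Y) (p : X →L[ℂ] X), IsCompactOperator S ∧
      FiniteDimensional ℂ (LinearMap.range π.toLinearMap) ∧
      FiniteDimensional ℂ (LinearMap.range p.toLinearMap) ∧ (∀ f, π f ∈ Sm) ∧
      (∀ f, π (π f) = π f) ∧ (∀ u, p (p u) = p u) ∧ (∀ u, (p u, 0) ∈ Gr) ∧
      (∀ f, (S f, f - π f) ∈ Gr) ∧ ∀ u f, (u, f) ∈ Gr → π f = 0 ∧ u = S f + p u :=
  abs_slv0 X Gr Sm (fun f => by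
    obtain ⟨u, b, c⟩ : L f ∈ Sm.map L.toLinearMap :=
      (Submodule.closed_of_finiteDimensional _).closure_subset
        (map_mem_closure L.continuous (hd f) fun u b => ⟨u, b, rfl⟩)
    obtain ⟨s, d, -⟩ := h (f - u) ((map_sub L f u).trans (sub_eq_zero.2 c.symm))
    exact ⟨u, b, s, d⟩) L Q hQ hX h hf

variable {C : Type} [TopologicalSpace C] {A : At C}
variable {F F' : Type} [NormedAddCommGroup F] [NormedSpace ℝ F] [NormedSpace ℂ F]
  [IsScalarTower ℝ ℂ F] [NormedAddCommGroup F'] [NormedSpace ℝ F'] [NormedSpace ℂ F']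
  [IsScalarTower ℝ ℂ F'] {i j : Fin A.N} {z : ℂ} {G : Co A (F →L[ℂ] F)}

/-- the section given by an element of the Banach space -/
def toG (hG : Rc A G) : Sct A G →ₗ[ℂ] Γ A 0 G where
  toFun u := ⟨_, cut_mem (fun i => contDiffOn_zero.2 (fm_ct hG u i)) (fm_sv hG u)⟩
  map_add' u v := Subtype.ext (funext₂ fun i z => by
    by_cases a : z ∈ ball (0 : ℂ) A.R <;> simp [cut, a])
  map_smul' c u := Subtype.ext (funext₂ fun i z => by
    by_cases a : z ∈ ball (0 : ℂ) A.R <;> simp [cut, a])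

theorem toG_apply (hG : Rc A G) (u : Sct A G) (h : z ∈ ball (0 : ℂ) A.R) :
    (toG hG u).1 i z = Sct.fm A u i z := cut_of _ h

theorem fm_mkG {k : WithTop ℕ∞} (hG : Rc A G) (s : Γ A k G) (h : z ∈ ball (0 : ℂ) A.R) :
    Sct.fm A (mk G s.1) i z = s.1 i z := fm_mk_of hG s.2.1.ct s.2.2.1 h

/-- the element of the Banach space given by a section -/
def ofG (hG : Rc A G) (k : WithTop ℕ∞) : Γ A k G →ₗ[ℂ] Sct A G where
  toFun s := mk G s.1
  map_add' s t := sct_ext hG fun i z a => by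
    rw [fm_add, fm_mkG hG _ (mem_of_le a), fm_mkG hG _ (mem_of_le a), fm_mkG hG _ (mem_of_le a)]
    rfl
  map_smul' c s := sct_ext hG fun i z a => by
    rw [RingHom.id_apply, fm_smul, fm_mkG hG _ (mem_of_le a), fm_mkG hG _ (mem_of_le a)]
    rfl

theorem fm_ofG {k : WithTop ℕ∞} (hG : Rc A G) (s : Γ A k G) (h : z ∈ ball (0 : ℂ) A.R) :
    Sct.fm A (ofG hG k s) i z = s.1 i z := fm_mkG hG s h

/-- extension to the larger discs -/
def ρL (hG : Rc A G) : Sct A G →L[ℂ] Y A F :=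
  (rsL G ∘ₗ toG hG).mkContinuous 1 fun u => norm_rs_le (toG hG u).2.1.ct (by positivity)
    fun i z a => by rw [toG_apply hG u (mem_of_le a), one_mul]; exact le_norm hG u a

variable (A F) in
/-- restriction to the closed unit discs -/
def rL : Y A F →L[ℂ] (Fin A.N → C(closedBall (0 : ℂ) 1, F)) :=
  ContinuousLinearMap.pi fun i => ContinuousMap.compCLM ℂ F
    ⟨fun w => rt w, P275FR.cont_rt.comp continuous_subtype_val⟩ ∘L ContinuousLinearMap.proj i

theorem rL_rsL (hG : Rc A G) (s : Γ A 0 G) : rL A F (rsL G s) = ofG hG 0 s := by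
  funext i
  ext w
  have a := mem_closedBall_zero_iff.1 w.2
  rw [← fm_unit hG _ w.2, fm_ofG hG s (mem_of_le a)]
  exact lf_rsL s a

variable (G) in
/-- the smooth sections -/
def SmS : Submodule ℂ (Sct A G) where
  carrier := {u | A.Sm ∞ (Sct.fm A u)}
  add_mem' := fun a b i => ((a i).add (b i)).congr fun _ _ => fm_add _ _
  zero_mem' := fun _ => contDiffOn_const.congr fun _ _ => fm_zero
  smul_mem' := fun c _ a i => ((a i).const_smul c).congr fun _ _ => fm_smul _ _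

variable [T2Space C]

theorem dense_SmS (hG : Rc A G) : Dense (SmS G : Set (Sct A G)) := fun f => by
  have cb := isCompact_closedBall (0 : ℂ) 1
  have c0 : ∀ j, ContDiff ℝ ∞ fun z => (A.χ j z : ℂ) := fun j => ofRealCLM.contDiff.comp (cd_χ j)
  have o : ∀ j z, z ∉ closedBall (0 : ℂ) 1 → (A.χ j z : ℂ) = 0 := fun j =>
    out_unit fun z a => by rw [χ_zero a.le, ofReal_zero]
  choose E hE using fun j => exists_EX hG j (c0 j).continuous cb A.unit_sub (o j)
  let Φ : Y A F → Sct A G := fun v => ∑ j, ofG hG 0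
    ⟨_, ex_mem0 (j := j) hG (c0 j).continuous cb A.unit_sub (o j) (cont_lf (v j))⟩
  have e : ∀ v i, ∀ z ∈ ball (0 : ℂ) A.R, Sct.fm A (Φ v) i z =
      ∑ j, ex A G j (fun w => (A.χ j w : ℂ) • lf (v j) w) i z := fun v i z a => by
    rw [P275KI.fm_sum]
    exact Finset.sum_congr rfl fun j _ => fm_ofG hG _ a
  have c : Continuous Φ := continuous_induced_rng.2 ((continuous_finsetSum Finset.univ fun j _ =>
    (rL A F).continuous.comp ((E j).continuous.comp (continuous_apply j))).congr fun v => by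
      simp only [Φ, Function.comp_apply, Submodule.coe_sum, ← rL_rsL]
      exact Finset.sum_congr rfl fun j _ => congrArg _ (funext fun i => ContinuousMap.ext
        fun z => hE j _ i z))
  have k : ∀ (v : Y A F) j (g : ℂ → F), (∀ w, ‖w‖ ≤ 1 → lf (v j) w = g w) →
      ex A G j (fun w => (A.χ j w : ℂ) • lf (v j) w) = ex A G j fun w => (A.χ j w : ℂ) • g w :=
    fun v j g h => ex_congr fun w _ => by
      by_cases b : w ∈ closedBall (0 : ℂ) 1
      · rw [h w (mem_closedBall_zero_iff.1 b)]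
      · rw [o j w b, zero_smul, zero_smul]
  rw [show f = Φ (ρL hG f) from sct_ext hG fun i z a => by
    rw [e _ i z (mem_of_le a), ← sum_ex (fm_sv hG f) (mem_of_le a)]
    exact Finset.sum_congr rfl fun j _ => congrFun₂ (k _ j _ fun w b =>
      (lf_rsL (toG hG f) b).trans (toG_apply hG f (mem_of_le b))).symm i z]
  refine map_mem_closure c (dense_pi univ (fun _ _ => dense_sm (F := F)) _) fun v hv i => ?_
  choose g hg hg' using fun j => hv j (mem_univ j)
  refine (ContDiffOn.sum (s := Finset.univ) fun j _ => (ex_mem (j := j) (k := ⊤) hG cb A.unit_sub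
    (u := fun w => (A.χ j w : ℂ) • g j w) (fun z _ b => by rw [o j z b, zero_smul])
    ((c0 j).smul (hg j)).contDiffOn).1 i).congr
    fun z a => (e v i z a).trans (Finset.sum_congr rfl fun j _ => congrFun₂
      (k v j _ fun w b => lf_of (hg' j) (b.trans (by norm_num))) i z)

variable (B : F' →L[ℂ] F →L[ℂ] ℂ) in
/-- the pairing with a fixed continuous family is bounded -/
theorem cont_pr (hG : Rc A G) {σ : Fam A F'} (hσ : A.Ct σ) :
    Continuous fun f : Sct A G => pr A B σ (Sct.fm A f) := by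
  obtain ⟨M, M0, hM⟩ := hσ.bdd A.hR
  refine (LipschitzWith.of_dist_le' (K := A.int fun _ _ => ‖B‖ * M) fun u v => ?_).continuous
  have a := (ct_pr (B := B) hσ (fm_ct hG u)).in
  have b := (ct_pr (B := B) hσ (fm_ct hG v)).in
  rw [dist_eq_norm, dist_eq_norm, pr, pr, ← int_sub a b, mul_comm, ← int_mul]
  refine (norm_int_le _).trans (int_mono (a.sub b).norm (Ct.in fun _ => continuousOn_const)
    fun i z c => ?_)
  rw [← map_sub, ← fm_sub, mul_comm]
  exact (B.le_opNorm₂ _ _).trans (by gcongr; exacts [hM i z c.le, le_norm hG _ c.le])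

variable [FiniteDimensional ℂ F]

attribute [local instance] cplF

variable (G) in
/-- the graph of the weak operator -/
def GrS : Submodule ℂ (Sct A G × Sct A (bar A G)) where
  carrier := {q | WD A (Sct.fm A q.1) (Sct.fm A q.2)}
  add_mem' := fun a b => WD.congr (fun i z c => (a i z c).add (b i z c))
    (fun _ _ _ => fm_add _ _) fun _ _ _ => fm_add _ _
  zero_mem' := WD.congr (fun _ _ _ => P275KI.wa_const 0) (fun _ _ _ => fm_zero) fun _ _ _ => fm_zero
  smul_mem' := fun r _ a => WD.congr (fun i z c => (a i z c).csmul r)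
    (fun _ _ _ => fm_smul _ _) fun _ _ _ => fm_smul _ _

theorem GrS_hol {u : Sct A G} : (u, 0) ∈ GrS G ↔ A.Hl (Sct.fm A u) :=
  ⟨fun a => WD.hl (WD.congr a (fun _ _ _ => rfl) fun _ _ _ => fm_zero.symm),
    fun a => (wd_hl a).congr (fun _ _ _ => rfl) fun _ _ _ => fm_zero⟩

/-- a solution operator which is compact -/
theorem exists_slv (hG : A.Cc G) : ∃ K : Slv A G, IsCompactOperator K.S := by
  have r := rc_of hG
  obtain ⟨n, Λ, Q, hQ, h⟩ := par hG
  have := fin_H0 hG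
  obtain ⟨S, π, p, a0, a1, a2, a3, a4, a5, a6, a7, a8⟩ := abs_slv (Sct A G) (GrS G) (SmS (bar A G))
    (dense_SmS r.bar) (Λ ∘L ρL r.bar) (rL A F ∘L Q ∘L ρL r.bar)
    ((hQ.comp_clm (ρL r.bar)).clm_comp (rL A F)) (P275KI.sct_closed G) (fun f a => by
      obtain ⟨s, b, c⟩ := h _ a
      refine ⟨ofG r 0 s, wd_fm hG fun i z d => ?_, (rL_rsL r s).symm.trans (congrArg _ c)⟩
      have e := isOpen_ball.mem_nhds (mem_of_le (A := A) d.le)
      exact (wa_of_wk isOpen_ball ((s.2.1.ct i).mono ball_sub)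
        (((toG r.bar f).2.1.ct i).mono ball_sub) (b i) (mem_ball_zero_iff.2 d)).congr
        (eventually_of_mem e fun w x => fm_ofG r s x)
        (eventually_of_mem e fun w x => (toG_apply r.bar f x).symm))
    (Module.Finite.of_injective (((Γ A 0 G).subtype ∘ₗ toG r ∘ₗ Submodule.subtype _).codRestrict
      (H0 A G) fun u => cut_mem0 (GrS_hol.1 u.2) (fm_sv r _)) fun u v a => Subtype.ext
        (sct_ext r fun i z b => by
          rw [← toG_apply r _ (mem_of_le b), ← toG_apply r _ (mem_of_le b)]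
          exact congrFun₂ (congrArg Subtype.val a) i z))
  exact ⟨⟨S, π, p, a1, a2, a3, a4, a5, fun u => GrS_hol.1 (a6 u), fun f => (wd_iff r _ _).1 (a7 f),
    fun u f b => a8 u f ((wd_iff r _ _).2 b)⟩, a0⟩

/-- Serre duality for continuous forms -/
theorem slv_rep [FiniteDimensional ℂ F'] {G' : Co A (F' →L[ℂ] F')} {B : F' →L[ℂ] F →L[ℂ] ℂ}
    (hG : A.Cc G) (hG' : A.Cc G') (h : SD A B G' G) (K : Slv A G)
    (ξ : Sct A (bar A G) →L[ℂ] ℂ) (hξ : ∀ f, ξ f = ξ (K.π f)) :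
    ∃ σ ∈ H0 A G', ∀ f, ξ f = pr A B σ (Sct.fm A f) := by
  have r := rc_of hG
  obtain ⟨σ, a, b⟩ := exists_rep hG hG' h (ξ.toLinearMap ∘ₗ ofG r.bar ∞) fun f ⟨s, c, d⟩ => by
    show ξ _ = 0
    rw [hξ, (slv_uni hG K (u := ofG r ∞ ⟨s, c⟩) fun i z e => ((wd_sm (c.1.of_le (by simp))).congr
      (fun i z x => fm_ofG r ⟨s, c⟩ x) fun i z x => (fm_ofG r.bar f x).trans (d i z x).symm)
        i z (mem_of_le e.le)).1]
    exact map_zero ξ
  refine ⟨σ, a, fun f => (dense_SmS r.bar).induction (fun f c => ?_)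
    (isClosed_eq ξ.continuous (cont_pr B r.bar (H0_le 0 a).1.ct)) f⟩
  have d := cut_mem c (fm_sv r.bar f)
  rw [show f = ofG r.bar ∞ ⟨_, d⟩ from sct_ext r.bar fun i z e =>
    ((fm_ofG r.bar ⟨_, d⟩ (mem_of_le e)).trans (cut_of _ (mem_of_le e))).symm]
  exact (b _).trans (int_congr' fun i z e => by rw [fm_ofG r.bar _ e])

/-- **the block DOL** -/
theorem dol (A : At C) : DOL A := fun V _ _ _ _ _ G hG => ⟨⟨(exists_slv hG).choose⟩, fun K ξ h => by
  obtain ⟨σ, a, b⟩ := slv_rep hG (cc_dk hG) (sd_dk hG) K ξ h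
  refine ⟨σ, a.1, fun i j w c => ContinuousLinearMap.ext fun x => ?_, b⟩
  rw [a.2.1 i j w c]
  exact (sd_dk hG).eq i j w c _ x⟩

end Vale.Agent.P275RR
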