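import Mathlib.Algebra.Module.LinearMap.Index
import Mathlib.LinearAlgebra.Transvection.Basic
import Mathlib.Analysis.Analytic.Order
import Mathlib.Analysis.Analytic.Constructions
import Mathlib.Topology.Algebra.Module.Determinant
import Mathlib.Analysis.Normed.Module.FiniteDimension
import Mathlib.Analysis.LocallyConvex.SeparatingDual
import Vale.Agent.P281Z.Hm.MCalc

/-!
# P275, block RR: indices, elementary modifications of germs
-/

set_option linter.unusedSectionVars false

open scoped Topology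
open Set Filter Module

noncomputable section

namespace Vale.Agent.P275RR

section alg
variable {k V W : Type} [Field k] [AddCommGroup V] [Module k V] [AddCommGroup W] [Module k W]

/-- linear maps with finite dimensional kernel and cokernel -/
structure Fh (D : V →ₗ[k] W) : Prop where
  ker : FiniteDimensional k (LinearMap.ker D)
  cok : FiniteDimensional k (W ⧸ LinearMap.range D)

theorem Fh.of_equiv (e : V ≃ₗ[k] W) : Fh e.toLinearMap :=
  ⟨by rw [e.ker]; infer_instance, by rw [e.range]; infer_instance⟩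

theorem Fh.index_comp {U : Type} [AddCommGroup U] [Module k U] {D : V →ₗ[k] W} {E : W →ₗ[k] U}
    (hE : Fh E) (hD : Fh D) : (E ∘ₗ D).index = E.index + D.index :=
  have := hD.ker
  have := hD.cok
  have := hE.ker
  have := hE.cok
  LinearMap.index_comp E

/-- restriction over a subspace which spans the cokernel -/
theorem idx_sub (D : V →ₗ[k] W) (W0 : Submodule k W) (h : ∀ w, ∃ v, w - D v ∈ W0) :
    Nonempty (LinearMap.ker (D.restrict (p := W0.comap D) (q := W0) fun _ a => a) ≃ₗ[k]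
      LinearMap.ker D) ∧ Nonempty ((W0 ⧸ LinearMap.range (D.restrict (p := W0.comap D) (q := W0)
        fun _ a => a)) ≃ₗ[k] W ⧸ LinearMap.range D) := by
  constructor
  · refine ⟨LinearEquiv.ofBijective (((W0.comap D).subtype ∘ₗ Submodule.subtype _).codRestrict _
      fun x => congrArg Subtype.val (LinearMap.mem_ker.1 x.2)) ⟨fun x y e =>
        Subtype.ext (Subtype.ext (congrArg (fun a : LinearMap.ker D => a.1) e)), fun x => ⟨⟨⟨x.1, ?_⟩, ?_⟩, rfl⟩⟩⟩
    · rw [Submodule.mem_comap, LinearMap.mem_ker.1 x.2]; exact zero_mem _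
    · exact Subtype.ext x.2
  · refine ⟨LinearEquiv.ofBijective (Submodule.mapQ _ _ W0.subtype ?_) ⟨?_, fun x => ?_⟩⟩
    · rintro _ ⟨v, rfl⟩; exact ⟨v.1, rfl⟩
    · refine (injective_iff_map_eq_zero _).2 fun x hx => ?_
      obtain ⟨w, rfl⟩ := Submodule.Quotient.mk_surjective _ x
      obtain ⟨v, hv⟩ := (Submodule.Quotient.mk_eq_zero _).1 hx
      exact (Submodule.Quotient.mk_eq_zero _).2 ⟨⟨v, by rw [Submodule.mem_comap, hv]; exact w.2⟩,
        Subtype.ext hv⟩
    · obtain ⟨w, rfl⟩ := Submodule.Quotient.mk_surjective _ x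
      obtain ⟨v, hv⟩ := h w
      exact ⟨Submodule.Quotient.mk ⟨_, hv⟩, (Submodule.Quotient.eq _).2 ⟨-v, by simp⟩⟩

theorem Fh.sub {D : V →ₗ[k] W} (hD : Fh D) (W0 : Submodule k W) (h : ∀ w, ∃ v, w - D v ∈ W0) :
    Fh (D.restrict (p := W0.comap D) (q := W0) fun _ a => a) ∧
      (D.restrict (p := W0.comap D) (q := W0) fun _ a => a).index = D.index := by
  obtain ⟨⟨a⟩, ⟨b⟩⟩ := idx_sub D W0 h
  have := hD.ker
  have := hD.cok
  exact ⟨⟨a.symm.finiteDimensional, b.symm.finiteDimensional⟩, by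
    rw [LinearMap.index_eq_finrank_sub, LinearMap.index_eq_finrank_sub, a.finrank_eq, b.finrank_eq]⟩

/-- `U` has codimension `n` -/
def Cod (U : Submodule k V) (n : ℕ) : Prop := FiniteDimensional k (V ⧸ U) ∧ finrank k (V ⧸ U) = n

theorem cod_top : Cod (⊤ : Submodule k V) 0 := ⟨inferInstance, finrank_zero_of_subsingleton⟩

theorem Cod.succ {U U' : Submodule k V} {n : ℕ} (h : Cod U' n) (hU : U ≤ U') {e : V} (h1 : e ∈ U')
    (h2 : e ∉ U) (h3 : ∀ u ∈ U', ∃ c : k, u - c • e ∈ U) : Cod U (n + 1) := by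
  have := h.1
  have a : LinearMap.ker (Submodule.factor hU) = k ∙ U.mkQ e := by
    ext x
    obtain ⟨u, rfl⟩ := U.mkQ_surjective x
    rw [LinearMap.mem_ker, Submodule.factor_mk, Submodule.mkQ_apply, Submodule.Quotient.mk_eq_zero,
      Submodule.mem_span_singleton]
    refine ⟨fun b => (h3 u b).imp fun c d => ?_, fun ⟨c, d⟩ => ?_⟩
    · rw [← map_smul, eq_comm]; exact (Submodule.Quotient.eq _).2 d
    · rw [← map_smul, eq_comm] at d
      simpa using add_mem (hU ((Submodule.Quotient.eq _).1 d)) (U'.smul_mem c h1)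
  have b := (Submodule.factor hU).quotKerEquivOfSurjective (Submodule.factor_surjective hU)
  have c : FiniteDimensional k (LinearMap.ker (Submodule.factor hU)) := by rw [a]; infer_instance
  have := b.symm.finiteDimensional
  have d : FiniteDimensional k (V ⧸ U) := Module.Finite.of_submodule_quotient
    (LinearMap.ker (Submodule.factor hU))
  refine ⟨d, ?_⟩
  rw [← (LinearMap.ker (Submodule.factor hU)).finrank_quotient_add_finrank, b.finrank_eq, h.2, a,
    finrank_span_singleton (v := U.mkQ e) fun f => h2 ((Submodule.Quotient.mk_eq_zero _).1 f)]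

theorem idx_mod {V' W' : Type} [AddCommGroup V'] [Module k V'] [AddCommGroup W'] [Module k W']
    {D : V →ₗ[k] W} {D' : V' →ₗ[k] W'} (hD : Fh D) (hD' : Fh D') (a : V →ₗ[k] V') (b : W →ₗ[k] W')
    (e : ∀ v, D' (a v) = b (D v)) {W0 : Submodule k W} {W0' : Submodule k W'}
    (h : ∀ w, ∃ v, w - D v ∈ W0) (h' : ∀ w, ∃ v, w - D' v ∈ W0') (ha : Function.Injective a)
    (hb : Function.Injective b) (h1 : ∀ w ∈ W0, b w ∈ W0') (h2 : ∀ w ∈ W0', ∃ u ∈ W0, b u = w)
    {U : Submodule k (W0'.comap D')} {n : ℕ} (hU : Cod U n)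
    (h3 : ∀ s, s ∈ U ↔ ∃ u ∈ W0.comap D, a u = s.1) : D'.index = D.index + n ∧
      finrank k (W' ⧸ LinearMap.range D') ≤ finrank k (W ⧸ LinearMap.range D) := by
  obtain ⟨f1, i1⟩ := hD.sub _ h
  obtain ⟨f2, i2⟩ := hD'.sub _ h'
  let a0 : W0.comap D →ₗ[k] W0'.comap D' := a.restrict fun s p => by
    rw [Submodule.mem_comap, e]; exact h1 _ p
  let b0 : W0 →ₗ[k] W0' := b.restrict h1
  have b1 : Function.Bijective b0 := ⟨fun s t p => Subtype.ext (hb (congrArg Subtype.val p)),
    fun s => let ⟨u, p, q⟩ := h2 s.1 s.2; ⟨⟨u, p⟩, Subtype.ext q⟩⟩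
  have j0 : Function.Injective a0 := fun s t p => Subtype.ext (ha (congrArg Subtype.val p))
  have r0 : LinearMap.range a0 = U := Submodule.ext fun s => by
    rw [h3]
    exact ⟨fun ⟨u, p⟩ => ⟨u.1, u.2, congrArg Subtype.val p⟩, fun ⟨u, p, q⟩ => ⟨⟨u, p⟩, Subtype.ext q⟩⟩
  rw [← r0] at hU
  have f0 : Fh a0 := ⟨by rw [LinearMap.ker_eq_bot.2 j0]; infer_instance, hU.1⟩
  have p := f2.index_comp f0
  have q := (Fh.of_equiv (LinearEquiv.ofBijective b0 b1)).index_comp f1
  have r : (D'.restrict (p := W0'.comap D') (q := W0') fun _ a => a) ∘ₗ a0 =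
      (LinearEquiv.ofBijective b0 b1).toLinearMap ∘ₗ
        D.restrict (p := W0.comap D) (q := W0) fun _ a => a :=
    LinearMap.ext fun s => Subtype.ext (e s.1)
  rw [r, q, LinearEquiv.index_eq_zero, i1, i2, LinearMap.index_of_injective j0, hU.2] at p
  refine ⟨by omega, ?_⟩
  have := hD.cok
  refine LinearMap.finrank_le_finrank_of_surjective (f := Submodule.mapQ _ _ b ?_) fun y => ?_
  · rintro _ ⟨s, rfl⟩
    exact ⟨_, e s⟩
  · obtain ⟨f, rfl⟩ := Submodule.Quotient.mk_surjective _ y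
    obtain ⟨s, p⟩ := h' f
    obtain ⟨u, -, q⟩ := h2 _ p
    exact ⟨Submodule.Quotient.mk u, (Submodule.Quotient.eq _).2 ⟨-s, by simp [q]⟩⟩

end alg

section germ
variable {F : Type} [NormedAddCommGroup F] [NormedSpace ℂ F] [FiniteDimensional ℂ F] {c : ℂ}
  {ψ : ℂ → F →L[ℂ] F}

open scoped Matrix.Norms.Operator in
theorem an_dt (h : AnalyticAt ℂ ψ c) : AnalyticAt ℂ (fun z => (ψ z).det) c := by
  let b := Module.finBasis ℂ F
  let L := LinearMap.toContinuousLinearMap ((LinearMap.toMatrix b b).toLinearMap ∘ₗ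
    ContinuousLinearMap.coeLM ℂ)
  have := P281Z.Hm.an_det ((L.analyticAt _).comp h)
  exact this.congr (Eventually.of_forall fun z => LinearMap.det_toMatrix b _)

theorem isUnit_iff_det (L : F →L[ℂ] F) : IsUnit L ↔ L.det ≠ 0 :=
  ⟨fun h => ((LinearMap.isUnit_iff_isUnit_det (L : F →ₗ[ℂ] F)).1
    (h.map ContinuousLinearMap.toLinearMapRingHom)).ne_zero, fun h =>
    ⟨(ContinuousLinearEquiv.unitsEquiv ℂ F).symm (L.toContinuousLinearEquivOfDetNeZero h), rfl⟩⟩

theorem det_mul' (L M : F →L[ℂ] F) : (L * M).det = L.det * M.det := LinearMap.det_comp _ _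

theorem det_one' : (1 : F →L[ℂ] F).det = 1 := LinearMap.det_id

theorem det_smul' (a : ℂ) (L : F →L[ℂ] F) : (a • L).det = a ^ finrank ℂ F * L.det :=
  LinearMap.det_smul a _

theorem an_inv' (h : AnalyticAt ℂ ψ c) (h0 : IsUnit (ψ c)) :
    AnalyticAt ℂ (fun z => Ring.inverse (ψ z)) c :=
  have := FiniteDimensional.complete ℂ F
  (analyticOnNhd_inverse (𝕜 := ℂ) _ h0).comp h

theorem inv_app {L : F →L[ℂ] F} (h : IsUnit L) (x : F) : Ring.inverse L (L x) = x :=
  congrArg (fun T : F →L[ℂ] F => T x) (Ring.inverse_mul_cancel L h)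

theorem app_inv {L : F →L[ℂ] F} (h : IsUnit L) (x : F) : L (Ring.inverse L x) = x :=
  congrArg (fun T : F →L[ℂ] F => T x) (Ring.mul_inverse_cancel L h)

theorem an_app {E : Type} [NormedAddCommGroup E] [NormedSpace ℂ E] {g : ℂ → E →L[ℂ] F} {t : ℂ → E}
    (hg : AnalyticAt ℂ g c) (ht : AnalyticAt ℂ t c) : AnalyticAt ℂ (fun z => g z (t z)) c :=
  ((ContinuousLinearMap.id ℂ (E →L[ℂ] F)).analyticAt_bilinear _).comp (hg.prod ht)

theorem an_dsl {E : Type} [NormedAddCommGroup E] [NormedSpace ℂ E] {t : ℂ → E}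
    (h : AnalyticAt ℂ t c) : AnalyticAt ℂ (dslope t c) c :=
  let ⟨_, hp⟩ := h
  hp.has_fpower_series_dslope_fslope.analyticAt

/-- one elementary modification splits off -/
theorem exists_mod (h : AnalyticAt ℂ ψ c) {m : ℕ}
    (hm : analyticOrderAt (fun z => (ψ z).det) c = (m + 1 : ℕ)) :
    ∃ (ψ' : ℂ → F →L[ℂ] F) (v : F), AnalyticAt ℂ ψ' c ∧
      analyticOrderAt (fun z => (ψ' z).det) c = m ∧
      (∀ t, AnalyticAt ℂ t c → ∃ t', AnalyticAt ℂ t' c ∧ ∀ z, ψ z (t z) = ψ' z (t' z)) ∧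
      (∀ t, AnalyticAt ℂ t c → ¬∀ᶠ z in 𝓝 c, ψ' z v = ψ z (t z)) ∧
      ∀ t', AnalyticAt ℂ t' c → ∃ (a : ℂ) (t : ℂ → F), AnalyticAt ℂ t c ∧
        ∀ z, ψ' z (t' z) - a • ψ' z v = ψ z (t z) := by
  have h0 : (ψ c).det = 0 := apply_eq_zero_of_analyticOrderAt_ne_zero
    (f := fun z => (ψ z).det) (by rw [hm]; simp)
  obtain ⟨v, hv, v0⟩ := Submodule.exists_mem_ne_zero_of_ne_bot
    (LinearMap.det_eq_zero_iff_ker_ne_bot.1 h0)
  obtain ⟨L, hL⟩ := SeparatingDual.exists_eq_one (R := ℂ) v0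
  have hv' : ψ c v = 0 := hv
  let δ : ℂ → F →L[ℂ] F := fun z => 1 + (z - c - 1) • L.smulRight v
  let ψ' : ℂ → F →L[ℂ] F := fun z => ψ z * (1 - L.smulRight v) +
    L.smulRight (dslope (fun z => ψ z v) c z)
  have eδ : ∀ z x, δ z x = x + ((z - c - 1) * L x) • v := fun z x => by simp [δ, mul_smul]
  have eψ : ∀ z x, ψ' z x = ψ z x - L x • ψ z v + L x • dslope (fun z => ψ z v) c z :=
    fun z x => by simp [ψ']
  have e1 : ∀ z x, ψ z x = ψ' z (δ z x) := fun z x => by
    have := sub_smul_dslope (fun z => ψ z v) c z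
    rw [hv', sub_zero] at this
    simp only [eψ, eδ, map_add, map_smul, hL, smul_eq_mul, mul_one]
    rw [show L x + (z - c - 1) * L x = L x * (z - c) by ring, mul_smul (L x) (z - c) (dslope _ _ _),
      this]
    module
  have e2 : ∀ z, (δ z).det = z - c := fun z => by
    have := LinearMap.transvection.det ((z - c - 1) • (L : F →ₗ[ℂ] ℂ)) v
    rw [show z - c = 1 + ((z - c - 1) • (L : F →ₗ[ℂ] ℂ)) v by simp [hL], ← this]
    exact congrArg LinearMap.det (LinearMap.ext fun x => eδ z x)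
  have a1 : AnalyticAt ℂ ψ' c := (h.mul analyticAt_const).add
    (((ContinuousLinearMap.smulRightL ℂ F F L).analyticAt _).comp
      (an_dsl (an_app h analyticAt_const)))
  have a2 : AnalyticAt ℂ δ c := analyticAt_const.add
    (((analyticAt_id.sub analyticAt_const).sub analyticAt_const).smul analyticAt_const)
  have o : analyticOrderAt (fun z => (ψ' z).det) c = m := by
    have e : (fun z => (ψ z).det) = (fun z => (ψ' z).det) * fun z => z - c := funext fun z => by
      rw [Pi.mul_apply, ← e2, ← det_mul']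
      exact congrArg _ (ContinuousLinearMap.ext (e1 z))
    rw [e, analyticOrderAt_mul (g := fun z => z - c) (an_dt a1) (analyticAt_id.sub analyticAt_const),
      analyticOrderAt_id_sub_const_self, Nat.cast_succ] at hm
    exact WithTop.add_right_cancel WithTop.one_ne_top hm
  refine ⟨ψ', v, a1, o, fun t ht => ⟨_, an_app a2 ht, fun z => e1 z _⟩, fun t ht hh => ?_,
    fun t ht => ⟨L (t c), fun z => t z - L (t z) • v + dslope (fun z => L (t z)) c z • v,
      (ht.sub (((L.analyticAt _).comp ht).smul analyticAt_const)).add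
        ((an_dsl ((L.analyticAt _).comp ht)).smul analyticAt_const), fun z => ?_⟩⟩
  · have b : ∀ᶠ z in 𝓝[≠] c, (ψ' z).det ≠ 0 :=
      (an_dt a1).eventually_eq_zero_or_eventually_ne_zero.resolve_left fun b => by
        rw [analyticOrderAt_eq_top.2 b] at o
        exact ENat.top_ne_natCast _ o
    have d : (fun _ => v) =ᶠ[𝓝[≠] c] fun z => δ z (t z) := by
      filter_upwards [b, nhdsWithin_le_nhds hh] with z p q
      rw [← inv_app ((isUnit_iff_det _).2 p) v, q, e1, inv_app ((isUnit_iff_det _).2 p)]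
    have f := congrArg L ((continuousAt_const.eventuallyEq_nhds_iff_eventuallyEq_nhdsNE
      (an_app a2 ht).continuousAt).1 d).self_of_nhds
    simp [eδ, hL] at f
  · have := sub_smul_dslope (fun z => L (t z)) c z
    rw [e1, ← map_smul, ← map_sub, eδ]
    refine congrArg _ ?_
    simp only [map_add, map_sub, map_smul, hL, smul_eq_mul, mul_one] at this ⊢
    rw [show L (t c) = L (t z) - (z - c) * dslope (fun z => L (t z)) c z by rw [this]; ring]
    module

end germ

end Vale.Agent.P275RR
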