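import Vale.Agent.P275GC.Pu
import Mathlib.Topology.Algebra.Module.Determinant
import Mathlib.Analysis.Normed.Module.FiniteDimension

/-!
# P275, block RR: Dolbeault cohomology of vector bundles on a curve, definitions
-/

set_option linter.unusedSectionVars false

open scoped Topology ComplexConjugate ContDiff
open Set Filter Metric MeasureTheory Complex Module

noncomputable section

namespace Vale.Agent.P275RR

open Vale.Agent.P281Z.Hm Vale.Agent.P275GC Vale.Agent.P275GC.At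

variable {C : Type} [TopologicalSpace C] (A : At C)

/-- families of functions of the chart coordinates -/
abbrev Fam (F : Type) : Type := Fin A.N → ℂ → F

/-- families of functions on the overlaps -/
abbrev Co (F : Type) : Type := Fin A.N → Fin A.N → ℂ → F

variable {F F' : Type} [NormedAddCommGroup F] [NormedSpace ℝ F] [NormedSpace ℂ F]
  [IsScalarTower ℝ ℂ F] [NormedAddCommGroup F'] [NormedSpace ℝ F'] [NormedSpace ℂ F']
  [IsScalarTower ℝ ℂ F']

/-- sections of the bundle with fibre `F` and cocycle `G` -/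
def SV (G : Co A (F →L[ℂ] F)) (s : Fam A F) : Prop :=
  ∀ i j, ∀ z ∈ A.O i j, s i z = G i j z (s j (A.tr i j z))

/-- normalised families: zero outside the discs -/
def Nz {F : Type} [Zero F] (s : Fam A F) : Prop := ∀ i z, z ∉ ball (0 : ℂ) A.R → s i z = 0

/-- normalisation -/
def cut {F : Type} [Zero F] (s : Fam A F) : Fam A F := fun i => (ball (0 : ℂ) A.R).indicator (s i)

/-- the twist by a line bundle -/
def tw (l : Co A ℂ) (G : Co A (F →L[ℂ] F)) : Co A (F →L[ℂ] F) := fun i j z => l i j z • G i j z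

/-- the bundle of `(0,1)`-forms with values in `G` -/
def bar (G : Co A (F →L[ℂ] F)) : Co A (F →L[ℂ] F) := tw A (fun i j z => conj (A.d i j z)) G

/-- the trivial bundle -/
def tv (F : Type) [NormedAddCommGroup F] [NormedSpace ℂ F] : Co A (F →L[ℂ] F) := fun _ _ _ => 1

/-- a line bundle -/
def ln (l : Co A ℂ) : Co A (ℂ →L[ℂ] ℂ) := tw A l (tv A ℂ)

/-- sections of class `C^k` -/
def Γ (k : WithTop ℕ∞) (G : Co A (F →L[ℂ] F)) : Submodule ℂ (Fam A F) where
  carrier := {s | A.Sm k s ∧ SV A G s ∧ Nz A s}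
  add_mem' := fun {s t} a b => ⟨fun i => (a.1 i).add (b.1 i), fun i j z h => by
    simp only [Pi.add_apply, map_add, a.2.1 i j z h, b.2.1 i j z h], fun i z h => by
    simp only [Pi.add_apply, a.2.2 i z h, b.2.2 i z h, add_zero]⟩
  zero_mem' := ⟨fun _ => contDiffOn_const, fun _ _ _ _ => (map_zero _).symm, fun _ _ _ => rfl⟩
  smul_mem' := fun c s a => ⟨fun i => (a.1 i).const_smul c, fun i j z h => by
    simp only [Pi.smul_apply, map_smul, a.2.1 i j z h], fun i z h => by
    simp only [Pi.smul_apply, a.2.2 i z h, smul_zero]⟩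

/-- holomorphic sections -/
def H0 (G : Co A (F →L[ℂ] F)) : Submodule ℂ (Fam A F) where
  carrier := {s | A.Hl s ∧ SV A G s ∧ Nz A s}
  add_mem' := fun {s t} a b => ⟨fun i => (a.1 i).add (b.1 i), fun i j z h => by
    simp only [Pi.add_apply, map_add, a.2.1 i j z h, b.2.1 i j z h], fun i z h => by
    simp only [Pi.add_apply, a.2.2 i z h, b.2.2 i z h, add_zero]⟩
  zero_mem' := ⟨fun _ => differentiableOn_const 0, fun _ _ _ _ => (map_zero _).symm,
    fun _ _ _ => rfl⟩
  smul_mem' := fun c s a => ⟨fun i => (a.1 i).const_smul c, fun i j z h => by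
    simp only [Pi.smul_apply, map_smul, a.2.1 i j z h], fun i z h => by
    simp only [Pi.smul_apply, a.2.2 i z h, smul_zero]⟩

/-- `∂̄ s = f` on the discs -/
def IsDb (s f : Fam A F) : Prop := ∀ i, ∀ z ∈ ball (0 : ℂ) A.R, wb 1 (s i) z = f i z

/-- the `∂̄`-exact forms -/
def B1 (G : Co A (F →L[ℂ] F)) : Submodule ℂ (Fam A F) where
  carrier := {f | ∃ s ∈ Γ A ∞ G, IsDb A s f}
  add_mem' := by
    rintro f g ⟨s, a, a'⟩ ⟨t, b, b'⟩
    refine ⟨s + t, add_mem a b, fun i z h => ?_⟩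
    rw [Pi.add_apply f, Pi.add_apply (f i), ← a' i z h, ← b' i z h]
    exact wb_add ((a.1.at h i).differentiableAt (by simp))
      ((b.1.at h i).differentiableAt (by simp)) 1
  zero_mem' := ⟨0, zero_mem _, fun _ z _ => wb_const 0 1 z⟩
  smul_mem' := by
    rintro c f ⟨s, a, a'⟩
    refine ⟨c • s, Submodule.smul_mem _ c a, fun i z h => ?_⟩
    rw [Pi.smul_apply c f, Pi.smul_apply c (f i), ← a' i z h]
    exact wb_const_smul c ((a.1.at h i).differentiableAt (by simp)) 1

/-- the first Dolbeault cohomology -/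
abbrev H1 (G : Co A (F →L[ℂ] F)) : Type :=
  Γ A ∞ (bar A G) ⧸ (B1 A G).submoduleOf (Γ A ∞ (bar A G))

/-- `dim H^0` -/
def h0 (G : Co A (F →L[ℂ] F)) : ℕ := finrank ℂ (H0 A G)

/-- `dim H^1` -/
def h1 (G : Co A (F →L[ℂ] F)) : ℕ := finrank ℂ (H1 A G)

/-- the Euler characteristic -/
def chi (G : Co A (F →L[ℂ] F)) : ℤ := h0 A G - h1 A G

/-- the determinant line bundle -/
def dt (G : Co A (F →L[ℂ] F)) : Co A ℂ := fun i j z => (G i j z).det

/-- the degree -/
def dg (G : Co A (F →L[ℂ] F)) : ℝ := A.deg (dt A G)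

/-- the genus, `dim H^0(K)` -/
def gen : ℕ := h0 A (ln A A.d)

/-- `G'` is the bundle `G^* ⊗ K`, through the perfect pairing `B` of the fibres -/
structure SD (B : F' →L[ℂ] F →L[ℂ] ℂ) (G' : Co A (F' →L[ℂ] F')) (G : Co A (F →L[ℂ] F)) :
    Prop where
  bij : Function.Bijective B
  eq : ∀ i j, ∀ z ∈ A.O i j, ∀ y x, B (G' i j z y) (G i j z x) = A.d i j z * B y x

/-- the pairing of a section of `G^* ⊗ K` with a `(0,1)`-form with values in `G` -/
def pr (B : F' →L[ℂ] F →L[ℂ] ℂ) (σ : Fam A F') (f : Fam A F) : ℂ :=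
  A.int fun i z => B (σ i z) (f i z)

/-- holomorphic maps of bundles -/
structure Hom (G : Co A (F →L[ℂ] F)) (G' : Co A (F' →L[ℂ] F')) (φ : Fam A (F →L[ℂ] F')) :
    Prop where
  hol : A.Hl φ
  eq : ∀ i j, ∀ z ∈ A.O i j, ∀ x, φ i z (G i j z x) = G' i j z (φ j (A.tr i j z) x)

/-- the canonical `G^* ⊗ K` -/
def dk (G : Co A (F →L[ℂ] F)) : Co A ((F →L[ℂ] ℂ) →L[ℂ] (F →L[ℂ] ℂ)) := fun i j z =>
  A.d i j z • (ContinuousLinearMap.compL ℂ F F ℂ).flip (G j i (A.tr i j z))

/-- the extension by zero of a section over the chart `j` -/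
def ex (G : Co A (F →L[ℂ] F)) (j : Fin A.N) (u : ℂ → F) : Fam A F := fun i =>
  (A.O i j).indicator fun z => G i j z (u (A.tr i j z))

/-- smooth cocycles -/
structure Rc (G : Co A (F →L[ℂ] F)) : Prop where
  sm : ∀ i j, ∀ z ∈ A.O i j, ContDiffAt ℝ ∞ (G i j) z
  one : ∀ i, ∀ z ∈ ball (0 : ℂ) A.R, G i i z = 1
  mul : ∀ i j k, ∀ z ∈ A.O i j, z ∈ A.O i k → G i k z = G i j z * G j k (A.tr i j z)

end Vale.Agent.P275RR
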