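import Vale.Agent.P275RR.Dol

/-!
# P275, block RR: solution operators adapted to a chart and to a projector
-/

set_option linter.unusedSectionVars false

open scoped Topology ComplexConjugate ContDiff
open Set Filter Metric MeasureTheory Complex Module

noncomputable section

namespace Vale.Agent.P275RR

open Vale.Agent.P281Z.Hm Vale.Agent.P275GC Vale.Agent.P275GC.At Vale.Agent.P275NA
open Vale.Agent.P275CT (cT_cd db_cT ex_cutC cd_cut cs_cut)
open Vale.Agent.P275MO (Sct Slv)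
open Vale.Agent.P275KI (WD fm_ct fm_sv fm_add fm_smul fm_zero fm_sub sct_ext wd_iff wd_sm lin
  fm_lin)

theorem abs_avg {X Y : Type} [NormedAddCommGroup X] [NormedSpace ℂ X] [NormedAddCommGroup Y]
    [NormedSpace ℂ Y] (Gr : Submodule ℂ (X × Y)) (Sm : Submodule ℂ Y) (S : Y →L[ℂ] X)
    (π : Y →L[ℂ] Y) (p : X →L[ℂ] X) (a0 : IsCompactOperator S)
    (a1 : FiniteDimensional ℂ (LinearMap.range π.toLinearMap))
    (a2 : FiniteDimensional ℂ (LinearMap.range p.toLinearMap)) (a3 : ∀ f, π f ∈ Sm)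
    (a6 : ∀ u, (p u, 0) ∈ Gr) (a7 : ∀ f, (S f, f - π f) ∈ Gr)
    (a8 : ∀ u f, (u, f) ∈ Gr → π f = 0 ∧ u = S f + p u) (T : X →L[ℂ] X) (U : Y →L[ℂ] Y)
    (hT : ∀ u, T (T u) = T u) (hU : ∀ f, U (U f) = U f)
    (hG : ∀ u f, (u, f) ∈ Gr → (T u, U f) ∈ Gr) (hS : ∀ f ∈ Sm, U f ∈ Sm) :
    ∃ (S : Y →L[ℂ] X) (π : Y →L[ℂ] Y) (p : X →L[ℂ] X), IsCompactOperator S ∧
      FiniteDimensional ℂ (LinearMap.range π.toLinearMap) ∧
      FiniteDimensional ℂ (LinearMap.range p.toLinearMap) ∧ (∀ f, π f ∈ Sm) ∧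
      (∀ f, π (π f) = π f) ∧ (∀ u, p (p u) = p u) ∧ (∀ u, (p u, 0) ∈ Gr) ∧
      (∀ f, (S f, f - π f) ∈ Gr) ∧ (∀ u f, (u, f) ∈ Gr → π f = 0 ∧ u = S f + p u) ∧
      (∀ f, S (U f) = T (S f)) ∧ (∀ f, π (U f) = U (π f)) ∧ ∀ u, p (T u) = T (p u) := by
  have hG' : ∀ u f, (u, f) ∈ Gr → ((1 - T) u, (1 - U) f) ∈ Gr := fun u f a =>
    sub_mem a (hG u f a)
  let S' := T ∘L S ∘L U + (1 - T) ∘L S ∘L (1 - U)
  let π' := U ∘L π ∘L U + (1 - U) ∘L π ∘L (1 - U)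
  let p' := T ∘L p ∘L T + (1 - T) ∘L p ∘L (1 - T)
  have fd : ∀ (E : Type) [NormedAddCommGroup E] [NormedSpace ℂ E] (q V : E →L[ℂ] E),
      FiniteDimensional ℂ (LinearMap.range q.toLinearMap) → FiniteDimensional ℂ (LinearMap.range
        (V ∘L q ∘L V + (1 - V) ∘L q ∘L (1 - V)).toLinearMap) := fun E _ _ q V _ =>
    Submodule.finiteDimensional_of_le (S₂ := (LinearMap.range q.toLinearMap).map V.toLinearMap ⊔
      (LinearMap.range q.toLinearMap).map (1 - V).toLinearMap) (by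
        rintro _ ⟨x, rfl⟩
        exact Submodule.add_mem_sup ⟨_, ⟨_, rfl⟩, rfl⟩ ⟨_, ⟨_, rfl⟩, rfl⟩)
  have b6 : ∀ u, (p' u, 0) ∈ Gr := fun u => by
    convert add_mem (hG _ _ (a6 (T u))) (hG' _ _ (a6 ((1 - T) u))) using 1
    exact Prod.ext rfl (by simp)
  have b7 : ∀ f, (S' f, f - π' f) ∈ Gr := fun f => by
    convert add_mem (hG _ _ (a7 (U f))) (hG' _ _ (a7 ((1 - U) f))) using 1
    refine Prod.ext rfl ?_
    simp [π', hU]
    abel
  have b8 : ∀ u f, (u, f) ∈ Gr → π' f = 0 ∧ u = S' f + p' u := fun u f a => by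
    obtain ⟨c1, c2⟩ := a8 _ _ (hG u f a)
    obtain ⟨c3, c4⟩ := a8 _ _ (hG' u f a)
    refine ⟨show U (π (U f)) + (1 - U) (π ((1 - U) f)) = 0 by simp only [c1, c3, map_zero, add_zero],
      show u = T (S (U f)) + (1 - T) (S ((1 - U) f)) + (T (p (T u)) + (1 - T) (p ((1 - T) u))) from ?_⟩
    rw [add_add_add_comm, ← map_add, ← map_add, ← c2, ← c4]
    simp [hT]
  refine ⟨S', π', p', (((a0.comp_clm U).clm_comp T).add
      ((a0.comp_clm (1 - U)).clm_comp (1 - T)) :),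
    fd _ _ _ a1, fd _ _ _ a2, fun f => add_mem (hS _ (a3 _)) (sub_mem (a3 _) (hS _ (a3 _))),
    fun f => ?_, fun u => ?_, b6, b7, b8, fun f => ?_, fun f => ?_, fun u => ?_⟩
  · have := (b8 _ _ (b7 f)).1
    rw [map_sub, sub_eq_zero] at this
    exact this.symm
  · have := (b8 _ _ (b6 u)).2
    rw [map_zero, zero_add] at this
    exact this.symm
  · simp [S', hT, hU]
  · simp [π', hU]
  · simp [p', hT]

variable {C : Type} [TopologicalSpace C] {A : At C} [T2Space C]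
variable {F : Type} [NormedAddCommGroup F] [NormedSpace ℝ F] [NormedSpace ℂ F]
  [IsScalarTower ℝ ℂ F] {G : Co A (F →L[ℂ] F)} [FiniteDimensional ℂ F]

attribute [local instance] cplF

theorem loc_sol (hG : A.Cc G) (j : Fin A.N) {g : ℂ → F} (hg : ContDiffOn ℝ ∞ g (ball 0 A.R)) :
    ∃ s ∈ Γ A ∞ G, ∀ w, ‖w‖ ≤ 1 → wb 1 (s j) w = g w := by
  obtain ⟨r2, a2, c2⟩ := exists_between A.hR
  obtain ⟨r1, a1, c1⟩ := exists_between a2
  obtain ⟨β, b1, b2, -, b4, b5⟩ := ex_cutC 0 (one_pos.trans a1) c1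
  have b3 : tsupport β ⊆ ball 0 A.R := b5 ▸ closedBall_subset_ball c2
  have d1 := cd_cut isOpen_ball b1 b3 hg
  have d2 := cs_cut b2 g
  have t := cT_cd (n := ⊤) d1 d2
  set T := cT fun z => β z • g z
  refine ⟨_, ex_mem (j := j) (k := ⊤) (u := fun z => β z • T z) (rc_of hG) b2 b3 (fun z _ a => by
    rw [image_eq_zero_of_notMem_tsupport a, zero_smul]) (b1.smul t).contDiffOn, fun w a => ?_⟩
  have k : ∀ᶠ y in 𝓝 w, β y = 1 := eventually_of_mem
    (isOpen_ball.mem_nhds (mem_ball_zero_iff.2 (a.trans_lt a1))) fun y b =>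
      b4 y (ball_subset_closedBall b)
  rw [wb_congr (g := T) ((k.and (isOpen_ball.mem_nhds (mem_of_le (A := A) a))).mono fun y u => by
      rw [ex_self (rc_of hG) u.2, u.1, one_smul]),
    show wb 1 T w = _ from congrFun (db_cT (d1.of_le (by simp)) d2) w, k.self_of_nhds, one_smul]

variable (G) in
/-- smooth sections which vanish on the closed unit disc of the chart `j` -/
def SmZ (j : Fin A.N) : Submodule ℂ (Sct A G) where
  carrier := {u | u ∈ SmS G ∧ ∀ w, ‖w‖ ≤ 1 → Sct.fm A u j w = 0}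
  add_mem' := fun a b => ⟨add_mem a.1 b.1, fun w c => by rw [fm_add, a.2 w c, b.2 w c, add_zero]⟩
  zero_mem' := ⟨zero_mem _, fun _ _ => fm_zero⟩
  smul_mem' := fun r _ a => ⟨Submodule.smul_mem _ r a.1, fun w c => by
    rw [fm_smul, a.2 w c, smul_zero]⟩

theorem comm_bar {T : F →L[ℂ] F} (h : ∀ i j, ∀ z ∈ A.O i j, ∀ x, T (G i j z x) = G i j z (T x)) :
    ∀ i j, ∀ z ∈ A.O i j, ∀ x, T (P275MO.bar A G i j z x) = P275MO.bar A G i j z (T x) :=
  fun i j z a x => (map_smul T _ _).trans (congrArg _ (h i j z a x))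

theorem SmZ_sup (hG : A.Cc G) (j : Fin A.N) (f : Sct A (bar A G)) (hf : f ∈ SmS (bar A G)) :
    ∃ u ∈ SmZ (bar A G) j, ∃ s, (s, f - u) ∈ GrS G := by
  have r := rc_of hG
  obtain ⟨s, b, c⟩ := loc_sol hG j (hf j)
  have d := db_mem hG b
  have e : ∀ i, ∀ z ∈ ball (0 : ℂ) A.R, Sct.fm A (ofG r.bar ∞ ⟨_, d⟩) i z = wb 1 (s i) z :=
    fun i z x => (fm_ofG r.bar ⟨_, d⟩ x).trans (cut_of (fun i => wb 1 (s i)) x)
  have e2 : ofG r.bar ∞ ⟨_, d⟩ ∈ SmS (bar A G) := fun i => (d.1 i).congr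
    fun z x => fm_ofG r.bar ⟨_, d⟩ x
  refine ⟨f - ofG r.bar ∞ ⟨_, d⟩, ⟨sub_mem hf e2, fun w x => (fm_sub _ _).trans (sub_eq_zero.2
    ((e j w (mem_of_le x)).trans (c w x)).symm)⟩, ofG r ∞ ⟨s, b⟩, ?_⟩
  rw [sub_sub_cancel]
  exact (wd_sm (b.1.of_le (by simp))).congr (fun i z x => fm_ofG r ⟨s, b⟩ x) e

theorem exists_slvZ (hG : A.Cc G) (j : Fin A.N) : ∃ (S : Sct A (bar A G) →L[ℂ] Sct A G)
    (π : Sct A (bar A G) →L[ℂ] Sct A (bar A G)) (p : Sct A G →L[ℂ] Sct A G), IsCompactOperator S ∧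
      FiniteDimensional ℂ (LinearMap.range π.toLinearMap) ∧
      FiniteDimensional ℂ (LinearMap.range p.toLinearMap) ∧ (∀ f, π f ∈ SmZ (bar A G) j) ∧
      (∀ f, π (π f) = π f) ∧ (∀ u, p (p u) = p u) ∧ (∀ u, (p u, 0) ∈ GrS G) ∧
      (∀ f, (S f, f - π f) ∈ GrS G) ∧ ∀ u f, (u, f) ∈ GrS G → π f = 0 ∧ u = S f + p u := by
  have r := rc_of hG
  obtain ⟨K, hK⟩ := exists_slv hG
  let π0 : Sct A (bar A G) →L[ℂ] Sct A (bar A G) := K.π
  let S0 : Sct A (bar A G) →L[ℂ] Sct A G := K.S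
  have k7 : ∀ f, (S0 f, f - π0 f) ∈ GrS G := fun f => (wd_iff r _ _).2 (K.wk f)
  have : FiniteDimensional ℂ (LinearMap.range π0.toLinearMap) := K.finπ
  have := K.finp
  let L : Sct A (bar A G) →L[ℂ] LinearMap.range π0.toLinearMap :=
    π0.codRestrict _ (LinearMap.mem_range_self π0.toLinearMap)
  refine abs_slv0 (W := LinearMap.range π0.toLinearMap) (Sct A G) (GrS G) _ (fun f => ?_) L
    (Submodule.subtypeL _ ∘L S0)
    (hK.clm_comp (Submodule.subtypeL _)) (P275KI.sct_closed G) (fun f a => ⟨S0 f, ?_, rfl⟩)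
    (Submodule.finiteDimensional_of_le (S₂ := LinearMap.range K.p.toLinearMap) fun u a => ⟨u, ?_⟩)
  · obtain ⟨u, a, s, b⟩ := SmZ_sup hG j (π0 f) (K.smπ f)
    exact ⟨u, a, S0 f + s, by simpa using add_mem (k7 f) b⟩
  · have := k7 f
    rwa [show π0 f = 0 from congrArg Subtype.val a, sub_zero] at this
  · have := (K.uni u 0 ((wd_iff r _ _).1 a)).2
    rw [map_zero, zero_add] at this
    exact this.symm

/-- **the block DOLS**; the forms `K.π f` vanish on the whole closed unit disc of the chart `j` -/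
theorem dols (hG : A.Cc G) (T : F →L[ℂ] F) (hT : ∀ x, T (T x) = T x)
    (hc : ∀ i j, ∀ z ∈ A.O i j, ∀ x, T (G i j z x) = G i j z (T x)) (j : Fin A.N) :
    ∃ K : Slv A G, IsCompactOperator K.S ∧ (∀ f w, ‖w‖ ≤ 1 → Sct.fm A (K.π f) j w = 0) ∧
      (∀ f, K.S (lin T (comm_bar hc) f) = lin T hc (K.S f)) ∧
      (∀ f, K.π (lin T (comm_bar hc) f) = lin T (comm_bar hc) (K.π f)) ∧
      ∀ u, K.p (lin T hc u) = lin T hc (K.p u) := by
  have r := rc_of hG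
  obtain ⟨S, π, p, a0, a1, a2, a3, -, -, a6, a7, a8⟩ := exists_slvZ hG j
  obtain ⟨S, π, p, a0, a1, a2, a3, a4, a5, a6, a7, a8, b⟩ := abs_avg (GrS G) (SmZ (bar A G) j) S π p
    a0 a1 a2 a3 a6 a7 a8 (lin T hc) (lin T (comm_bar hc))
    (fun u => sct_ext r fun i z a => by simp only [fm_lin _ _ _ (mem_of_le a), hT])
    (fun u => sct_ext r.bar fun i z a => (fm_lin _ _ _ (mem_of_le a)).trans ((congrArg T
      (fm_lin _ _ _ (mem_of_le a))).trans ((hT _).trans (fm_lin _ _ _ (mem_of_le a)).symm)))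
    (fun u f a => WD.congr (fun i z c => (a i z c).clm T) (fun _ _ c => fm_lin _ _ _ c)
      fun _ _ c => fm_lin _ _ _ c)
    fun f a => ⟨fun i => ((T.restrictScalars ℝ).contDiff.comp_contDiffOn (a.1 i)).congr
      fun _ c => fm_lin _ _ _ c, fun w c => (fm_lin _ _ _ (mem_of_le c)).trans
        ((congrArg T (a.2 w c)).trans (map_zero T))⟩
  exact ⟨⟨S, π, p, a1, a2, fun f => (a3 f).1, a4, a5, fun u => GrS_hol.1 (a6 u),
    fun f => (wd_iff r _ _).1 (a7 f), fun u f b => a8 u f ((wd_iff r _ _).2 b)⟩, a0,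
    fun f => (a3 f).2, b⟩

end Vale.Agent.P275RR
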