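import Vale.Agent.P275RR.Serre
import Vale.Agent.P275RR.Alg
import Vale.Agent.P275GC.Deg

/-!
# P275, block RR: the Euler characteristic under generic isomorphisms
-/

set_option linter.unusedSectionVars false

open scoped Topology ComplexConjugate ContDiff
open Set Filter Metric MeasureTheory Complex Module

noncomputable section

namespace Vale.Agent.P275RR

open Vale.Agent.P281Z.Hm Vale.Agent.P275GC Vale.Agent.P275GC.At Vale.Agent.P275NA
open Vale.Agent.P275CT (cT_cd db_cT db_ts ex_cutC cd_cut cs_cut db_cut)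

variable {C : Type} [TopologicalSpace C] {A : At C}
variable {F F' : Type} [NormedAddCommGroup F] [NormedSpace ℝ F] [NormedSpace ℂ F]
  [IsScalarTower ℝ ℂ F] [NormedAddCommGroup F'] [NormedSpace ℝ F'] [NormedSpace ℂ F']
  [IsScalarTower ℝ ℂ F'] {i j : Fin A.N} {z : ℂ} {G : Co A (F →L[ℂ] F)} {K : Set ℂ}
  {G' : Co A (F' →L[ℂ] F')} {φ : Fam A (F →L[ℂ] F')} {Z : Finset C} {x : C}

theorem Hom.bar (h : Hom A G G' φ) : Hom A (bar A G) (bar A G') φ :=
  ⟨h.hol, fun i j z a x => by rw [bar_apply, bar_apply, map_smul, h.eq i j z a]⟩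

theorem Hom.tw (h : Hom A G G' φ) (l : Co A ℂ) : Hom A (tw A l G) (tw A l G') φ :=
  ⟨h.hol, fun i j z a x => by rw [tw_apply, tw_apply, map_smul, h.eq i j z a]⟩

theorem Hom.sv (h : Hom A G G' φ) {s : Fam A F} (hs : SV A G s) :
    SV A G' fun i z => φ i z (s i z) := fun i j z a => by
  beta_reduce; rw [hs i j z a, h.eq i j z a]

variable (G Z) in
/-- smooth sections which vanish near `Z` -/
def W0 : Submodule ℂ (Γ A ∞ G) where
  carrier := {f | ∀ i, ∀ z ∈ ball (0 : ℂ) A.R, (A.e i).symm z ∈ Z → ∀ᶠ w in 𝓝 z, f.1 i w = 0}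
  add_mem' := fun a b i z c d => by
    filter_upwards [a i z c d, b i z c d] with w p q
    simp only [Submodule.coe_add, Pi.add_apply, p, q, add_zero]
  zero_mem' := fun _ _ _ _ => Eventually.of_forall fun _ => rfl
  smul_mem' := fun _ _ a i z c d => by
    filter_upwards [a i z c d] with w p
    simp only [Submodule.coe_smul, Pi.smul_apply, p, smul_zero]

theorem ex_ev1 {f : Fam A F} {u : ℂ → F} (hf : SV A G f) (h : z ∈ A.O i j)
    (e : u =ᶠ[𝓝 (A.tr i j z)] f j) : ex A G j u i =ᶠ[𝓝 z] f i := by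
  filter_upwards [O_nhds h, (an_tr h).continuousAt.eventually e] with w a b
  rw [ex_O a, b, hf i j w a]

variable (A) in
/-- a chart around `x` -/
def ch (x : C) : Fin A.N := (A.cov x).choose

variable (A) in
/-- the coordinate of `x` -/
def pc (x : C) : ℂ := A.e (ch A x) x

theorem ch_src (x : C) : x ∈ (A.e (ch A x)).source := (A.cov x).choose_spec.1

theorem pc_ball (x : C) : pc A x ∈ ball (0 : ℂ) A.R := map_src (ch_src x)

theorem symm_pc (x : C) : (A.e (ch A x)).symm (pc A x) = x := (A.e _).left_inv (ch_src x)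

theorem O_ch (h : z ∈ ball (0 : ℂ) A.R) (e : (A.e i).symm z = x) :
    z ∈ A.O i (ch A x) ∧ A.tr i (ch A x) z = pc A x :=
  ⟨⟨h, by rw [mem_preimage, e]; exact ch_src x⟩, by rw [tr, e, pc]⟩

variable [T2Space C]

theorem ex_ev0 {u : ℂ → F} (hK : IsCompact K) (hR : K ⊆ ball 0 A.R)
    (h0 : ∀ z ∈ ball (0 : ℂ) A.R, z ∉ K → u z = 0) (h : z ∈ ball (0 : ℂ) A.R)
    (h' : (A.e i).symm z ∉ (A.e j).symm '' K) : ∀ᶠ w in 𝓝 z, ex A G j u i w = 0 := by
  filter_upwards [ev_off hK hR h h'] with w a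
  by_cases b : w ∈ A.O i j
  · rw [ex_O b, h0 _ (tr_ball b) fun c => a ⟨_, c, symm_tr b⟩, map_zero]
  · exact ex_not b

theorem ev_notMem (Z : Finset C) (h : z ∈ ball (0 : ℂ) A.R) :
    ∀ᶠ w in 𝓝 z, (A.e i).symm w ∈ Z → w = z := by
  have a : ((Z : Set C) \ {(A.e i).symm z})ᶜ ∈ 𝓝 ((A.e i).symm z) :=
    (Z.finite_toSet.subset sdiff_subset).isClosed.isOpen_compl.mem_nhds fun b => b.2 rfl
  filter_upwards [contAt_symm h a, isOpen_ball.mem_nhds h] with w b c d
  exact (A.e i).symm.injOn (mem_tgt.2 c) (mem_tgt.2 h) (by_contra fun e => b ⟨d, e⟩)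

theorem exists_small (Z : Finset C) (x : C) {U : Set ℂ} (hU : U ∈ 𝓝 (pc A x)) :
    ∃ β : ℂ → ℂ, ContDiff ℝ ∞ β ∧ HasCompactSupport β ∧ tsupport β ⊆ ball 0 A.R ∧
      tsupport β ⊆ U ∧ (∀ᶠ w in 𝓝 (pc A x), β w = 1) ∧
      ∀ y ∈ Z, y ≠ x → y ∉ (A.e (ch A x)).symm '' tsupport β := by
  obtain ⟨r, hr, h⟩ := nhds_basis_closedBall.mem_iff.1 (inter_mem (inter_mem hU
    (isOpen_ball.mem_nhds (pc_ball x))) (ev_notMem (i := ch A x) Z (pc_ball x)))
  obtain ⟨β, b1, b2, -, b4, b5⟩ := ex_cutC (pc A x) (half_pos hr) (half_lt_self hr)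
  refine ⟨β, b1, b2, b5 ▸ fun w a => (h a).1.2, b5 ▸ fun w a => (h a).1.1,
    eventually_of_mem (closedBall_mem_nhds _ (half_pos hr)) b4, ?_⟩
  rintro _ a b ⟨w, c, rfl⟩
  exact b (by rw [(h (b5 ▸ c)).2 a, symm_pc])

variable [FiniteDimensional ℂ F] [FiniteDimensional ℂ F']

attribute [local instance] cplF

/-- the operator `∂̄` -/
def D (hG : A.Cc G) : Γ A ∞ G →ₗ[ℂ] Γ A ∞ (bar A G) where
  toFun s := ⟨_, db_mem hG s.2⟩
  map_add' s t := Subtype.ext ((nz_cut _).ext (add_mem (db_mem hG s.2) (db_mem hG t.2)).2.2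
    fun i z a => by
      simp only [Submodule.coe_add, Pi.add_apply, cut_of _ a]
      exact wb_add (s.2.1.df (by simp) a i) (t.2.1.df (by simp) a i) 1)
  map_smul' c s := Subtype.ext ((nz_cut _).ext (Submodule.smul_mem _ c (db_mem hG s.2)).2.2
    fun i z a => by
      simp only [Submodule.coe_smul, Pi.smul_apply, cut_of _ a, RingHom.id_apply]
      exact wb_const_smul c (s.2.1.df (by simp) a i) 1)

theorem D_apply (hG : A.Cc G) (s : Γ A ∞ G) (h : z ∈ ball (0 : ℂ) A.R) :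
    (D hG s).1 i z = wb 1 (s.1 i) z := cut_of (fun i => wb 1 (s.1 i)) h

theorem D_eq (hG : A.Cc G) {s : Γ A ∞ G} {f : Γ A ∞ (bar A G)} : D hG s = f ↔ IsDb A s.1 f.1 :=
  ⟨fun h i z a => by rw [← h, D_apply hG s a], fun h => Subtype.ext ((D hG s).2.2.2.ext f.2.2.2
    fun i z a => (D_apply hG s a).trans (h i z a))⟩

theorem range_D (hG : A.Cc G) :
    LinearMap.range (D hG) = (B1 A G).submoduleOf (Γ A ∞ (bar A G)) := by
  ext f
  exact ⟨fun ⟨s, a⟩ => ⟨s.1, s.2, (D_eq hG).1 a⟩, fun ⟨s, a, b⟩ => ⟨⟨s, a⟩, (D_eq hG).2 b⟩⟩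

theorem mem_ker_D (hG : A.Cc G) {s : Γ A ∞ G} : s ∈ LinearMap.ker (D hG) ↔ s.1 ∈ H0 A G :=
  ⟨fun a => mem_H0 (Γ_mono (by simp) s.2) ((D_eq hG).1 a), fun a => (D_eq hG).2 (isDb_H0 a)⟩

/-- the kernel of `∂̄` -/
def kerD (hG : A.Cc G) : LinearMap.ker (D hG) ≃ₗ[ℂ] H0 A G where
  toFun s := ⟨s.1.1, (mem_ker_D hG).1 s.2⟩
  invFun s := ⟨⟨s.1, H0_le _ s.2⟩, (mem_ker_D hG).2 s.2⟩
  map_add' _ _ := rfl
  map_smul' _ _ := rfl
  left_inv _ := rfl
  right_inv _ := rfl

theorem fh_D (hG : A.Cc G) : Fh (D hG) :=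
  have := fin_H0 hG
  ⟨(kerD hG).symm.finiteDimensional, by rw [range_D]; exact fin_H1 hG⟩

theorem index_D (hG : A.Cc G) : (D hG).index = chi A G := by
  rw [LinearMap.index_eq_finrank_sub, (kerD hG).finrank_eq, range_D]; rfl

theorem W0_sup (hG : A.Cc G) (Z : Finset C) (f : Γ A ∞ (bar A G)) :
    ∃ s, f - D hG s ∈ W0 (bar A G) Z := by
  classical
  induction Z using Finset.induction_on with
  | empty => exact ⟨0, fun _ _ _ a => absurd a (by simp)⟩
  | insert x Z hx ih =>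
    obtain ⟨s, hs⟩ := ih
    set g := f - D hG s with hg
    obtain ⟨β, b1, b2, b3, -, b4, b5⟩ := exists_small (A := A) Z x univ_mem
    have c1 := cd_cut isOpen_ball b1 b3 (g.2.1 (ch A x))
    have c2 := cs_cut b2 (g.1 (ch A x))
    have t := cT_cd (n := ⊤) c1 c2
    set T := cT fun z => β z • g.1 (ch A x) z
    have z1 : ∀ z ∈ ball (0 : ℂ) A.R, z ∉ tsupport β → β z • T z = 0 := fun z _ a => by
      rw [image_eq_zero_of_notMem_tsupport a, zero_smul]
    have m := ex_mem (j := ch A x) (k := ⊤) (rc_of hG) b2 b3 z1 (b1.smul t).contDiffOn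
    have d := db_ex (j := ch A x) hG b2 b3 z1 ((b1.smul t).of_le (by simp)).contDiffOn
    refine ⟨s + ⟨_, m⟩, fun i z a b => ?_⟩
    have e : ∀ᶠ w in 𝓝 z, (f - D hG (s + ⟨_, m⟩)).1 i w =
        g.1 i w - ex A (bar A G) (ch A x) (wb 1 fun z => β z • T z) i w := by
      filter_upwards [isOpen_ball.mem_nhds a] with w c
      rw [map_add, ← sub_sub, ← hg, Submodule.coe_sub, Pi.sub_apply, Pi.sub_apply, D_apply hG _ c,
        d i w c]
    rcases Finset.mem_insert.1 b with b | b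
    · obtain ⟨p, q⟩ := O_ch a b
      have k : (wb 1 fun z => β z • T z) =ᶠ[𝓝 (A.tr i (ch A x) z)] g.1 (ch A x) := by
        rw [q]
        filter_upwards [b4.eventually_nhds] with w c
        rw [wb_congr (g := T) (c.mono fun y u => by simp only [u, one_smul]),
          show wb 1 T w = _ from congrFun (db_cT (c1.of_le (by simp)) c2) w, c.self_of_nhds,
          one_smul]
      filter_upwards [e, ex_ev1 g.2.2.1 p k] with w c c'
      rw [c, c', sub_self]
    · have k := ex_ev0 (G := bar A G) (u := wb 1 fun z => β z • T z) b2 b3 (fun z _ c =>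
        image_eq_zero_of_notMem_tsupport fun u => c (tsupport_smul_subset_left _ _ (db_ts _ u))) a
        (b5 _ b fun u => hx (u ▸ b))
      filter_upwards [e, k, hs i z a b] with w c c' c''
      rw [c, c', c'', sub_self]

/-- smooth sections which are holomorphic near `Z` -/
abbrev V0 (hG : A.Cc G) (Z : Finset C) : Submodule ℂ (Γ A ∞ G) := (W0 (bar A G) Z).comap (D hG)

theorem mem_V0 (hG : A.Cc G) {s : Γ A ∞ G} : s ∈ V0 hG Z ↔
    ∀ i, ∀ z ∈ ball (0 : ℂ) A.R, (A.e i).symm z ∈ Z → AnalyticAt ℂ (s.1 i) z := by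
  refine forall_congr' fun i => forall₂_congr fun z a => forall_congr' fun _ => ?_
  rw [analyticAt_iff_eventually_differentiableAt]
  refine eventually_congr (eventually_of_mem (isOpen_ball.mem_nhds a) fun w b => ?_)
  rw [D_apply hG s b]
  exact ⟨hol_of_db (s.2.1.df (by simp) b i), fun c => wb_hol c 1⟩

/-- the sections with germs in given lattices -/
def VL (hG : A.Cc G) (Z : Finset C) (ψ : C → ℂ → F →L[ℂ] F) : Submodule ℂ (V0 hG Z) where
  carrier := {s | ∀ x ∈ Z, ∃ t, AnalyticAt ℂ t (pc A x) ∧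
    ∀ᶠ z in 𝓝 (pc A x), s.1.1 (ch A x) z = ψ x z (t z)}
  add_mem' := fun a b x c => by
    obtain ⟨t, p, q⟩ := a x c
    obtain ⟨t', p', q'⟩ := b x c
    refine ⟨t + t', p.add p', ?_⟩
    filter_upwards [q, q'] with w u v
    simp only [Submodule.coe_add, Pi.add_apply, u, v, map_add]
  zero_mem' := fun _ _ => ⟨0, analyticAt_const, Eventually.of_forall fun _ => (map_zero _).symm⟩
  smul_mem' := fun r _ a x c => by
    obtain ⟨t, p, q⟩ := a x c
    refine ⟨r • t, p.const_smul, ?_⟩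
    filter_upwards [q] with w u
    simp only [Submodule.coe_smul, Pi.smul_apply, u, map_smul]

/-- sections with a prescribed germ -/
theorem exists_germ (hG : A.Cc G) (Z : Finset C) (x : C) {u : ℂ → F}
    (hu : AnalyticAt ℂ u (pc A x)) : ∃ e : V0 hG Z, (∀ᶠ z in 𝓝 (pc A x), e.1.1 (ch A x) z = u z) ∧
      ∀ y ∈ Z, y ≠ x → ∀ᶠ z in 𝓝 (pc A y), e.1.1 (ch A y) z = 0 := by
  obtain ⟨β, b1, b2, b3, b3', b4, b5⟩ := exists_small (A := A) Z x hu.eventually_analyticAt
  have z1 : ∀ z ∈ ball (0 : ℂ) A.R, z ∉ tsupport β → β z • u z = 0 := fun z _ a => by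
    rw [image_eq_zero_of_notMem_tsupport a, zero_smul]
  have m := ex_mem (j := ch A x) (k := ⊤) (rc_of hG) b2 b3 z1 (cd_cut (isOpen_analyticAt ℂ u) b1 b3'
    fun _ a => (cd_an a).contDiffWithinAt).contDiffOn
  have k : (fun z => β z • u z) =ᶠ[𝓝 (pc A x)] u := b4.mono fun w a => by simp only [a, one_smul]
  refine ⟨⟨⟨_, m⟩, (mem_V0 hG).2 fun i z a b => ?_⟩, ?_, fun y a b => ex_ev0 b2 b3 z1 (pc_ball y)
    (by rw [symm_pc]; exact b5 y a b)⟩
  · by_cases c : (A.e i).symm z = x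
    · obtain ⟨p, q⟩ := O_ch a c
      exact (an_app (hG.an p) ((hu.congr k.symm).comp_of_eq (an_tr p) q)).congr (ev_ind' p).symm
    · exact analyticAt_const.congr (EventuallyEq.symm (ex_ev0 b2 b3 z1 a (b5 _ b c)))
  · filter_upwards [k, isOpen_ball.mem_nhds (pc_ball x)] with w a b
    exact (ex_self (rc_of hG) b).trans a

theorem cod_VL (hG : A.Cc G) (Z : Finset C) (n : ℕ) : ∀ (ψ : C → ℂ → F →L[ℂ] F) (m : C → ℕ),
    ∑ x ∈ Z, m x = n → (∀ x ∈ Z, AnalyticAt ℂ (ψ x) (pc A x) ∧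
      analyticOrderAt (fun z => (ψ x z).det) (pc A x) = m x) →
      Cod (k := ℂ) (V := V0 hG Z) (VL hG Z ψ) n := by
  classical
  induction n with
  | zero =>
    intro ψ m h0 h
    rw [show VL hG Z ψ = ⊤ from eq_top_iff.2 fun s _ x a => ?_]
    · exact cod_top
    have b : (ψ x (pc A x)).det ≠ 0 := (an_dt (h x a).1).analyticOrderAt_eq_zero.1 (by
      rw [(h x a).2, Finset.sum_eq_zero_iff.1 h0 x a]; rfl)
    refine ⟨_, an_app (an_inv' (h x a).1 ((isUnit_iff_det _).2 b)) ((mem_V0 hG).1 s.2 _ _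
      (pc_ball x) (by rwa [symm_pc])), ?_⟩
    filter_upwards [(an_dt (h x a).1).continuousAt.eventually_ne b] with w c
    rw [app_inv ((isUnit_iff_det _).2 c)]
  | succ n ih =>
    intro ψ m h0 h
    obtain ⟨x, hx, hm⟩ := Finset.exists_ne_zero_of_sum_ne_zero (h0.trans_ne n.succ_ne_zero)
    obtain ⟨k, hk⟩ := Nat.exists_eq_succ_of_ne_zero hm
    obtain ⟨ψ', v, p1, p2, p3, p4, p5⟩ := exists_mod (h x hx).1 (m := k) (by rw [(h x hx).2, hk])
    have c := ih (Function.update ψ x ψ') (Function.update m x k) (by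
      rw [← Finset.add_sum_erase Z m hx, hk] at h0
      rw [Finset.sum_update_of_mem hx, Finset.sdiff_singleton_eq_erase]
      omega) fun y a => by
        by_cases b : y = x
        · subst b; simpa using ⟨p1, p2⟩
        · simpa [b] using h y a
    obtain ⟨e, e1, e2⟩ := exists_germ hG Z x (an_app p1 (analyticAt_const (v := v)))
    refine c.succ (fun s a y b => ?_) (e := e) (fun y b => ?_) (fun a => ?_) fun s a => ?_
    · obtain ⟨t, q1, q2⟩ := a y b
      by_cases d : y = x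
      · subst d
        obtain ⟨t', r1, r2⟩ := p3 t q1
        exact ⟨t', r1, q2.mono fun w u => by rw [u, r2, Function.update_self]⟩
      · exact ⟨t, q1, by rwa [Function.update_of_ne d]⟩
    · by_cases d : y = x
      · subst d
        exact ⟨fun _ => v, analyticAt_const, by rwa [Function.update_self]⟩
      · exact ⟨0, analyticAt_const, (e2 y b d).mono fun w u => u.trans (map_zero _).symm⟩
    · obtain ⟨t, q1, q2⟩ := a x hx
      exact p4 t q1 ((e1.and q2).mono fun w u => u.1.symm.trans u.2)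
    · obtain ⟨t', q1, q2⟩ := a x hx
      obtain ⟨r, t, r1, r2⟩ := p5 t' q1
      refine ⟨r, fun y b => ?_⟩
      by_cases d : y = x
      · subst d
        refine ⟨t, r1, (e1.and q2).mono fun w u => ?_⟩
        rw [Function.update_self] at u
        simp only [Submodule.coe_sub, Submodule.coe_smul, Pi.sub_apply, Pi.smul_apply, u.1, u.2, r2]
      · obtain ⟨t, r1, r2⟩ := a y b
        refine ⟨t, r1, ((e2 y b d).and r2).mono fun w u => ?_⟩
        rw [Function.update_of_ne d] at u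
        simp only [Submodule.coe_sub, Submodule.coe_smul, Pi.sub_apply, Pi.smul_apply, u.1, u.2,
          smul_zero, sub_zero]

/-- the map on sections -/
def Hom.map (h : Hom A G G' φ) (k : WithTop ℕ∞) : Γ A k G →ₗ[ℂ] Γ A k G' where
  toFun s := ⟨fun i z => φ i z (s.1 i z), fun i z a => (cd_app (cd_an (h.hol.an a i))
    (s.2.1.at a i)).contDiffWithinAt, h.sv s.2.2.1, fun i z a => by
      beta_reduce; rw [s.2.2.2 i z a, map_zero]⟩
  map_add' s t := Subtype.ext (funext₂ fun i z => map_add _ _ _)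
  map_smul' c s := Subtype.ext (funext₂ fun i z => map_smul _ _ _)

theorem Hom.D_map (h : Hom A G G' φ) (hG : A.Cc G) (hG' : A.Cc G') (s : Γ A ∞ G) :
    D hG' (h.map ∞ s) = h.bar.map ∞ (D hG s) := (D_eq hG').2 fun i z a => by
  refine (wb_app_hol (h.hol.an a i).differentiableAt (s.2.1.df (by simp) a i)).trans ?_
  rw [← D_apply hG s a]; rfl

section same
variable {G' : Co A (F →L[ℂ] F)} {φ : Fam A (F →L[ℂ] F)}

theorem Hom.inj (h : Hom A G G' φ) (hZ : ∀ i, ∀ z ∈ ball (0 : ℂ) A.R, (A.e i).symm z ∉ Z →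
    IsUnit (φ i z)) (k : WithTop ℕ∞) : Function.Injective (h.map k) := by
  refine (injective_iff_map_eq_zero _).2 fun s a => Subtype.ext (s.2.2.2.ext (fun _ _ _ => rfl)
    fun i z b => ?_)
  have c : s.1 i =ᶠ[𝓝[≠] z] fun _ => 0 := by
    filter_upwards [self_mem_nhdsWithin, nhdsWithin_le_nhds (ev_notMem (i := i) Z b),
      nhdsWithin_le_nhds (isOpen_ball.mem_nhds b)] with w p q r
    rw [← inv_app (hZ i w r fun u => p (q u)) (s.1 i w),
      show φ i w (s.1 i w) = 0 from congrFun₂ (congrArg Subtype.val a) i w, map_zero]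
  exact (((s.2.1.at b i).continuousAt.eventuallyEq_nhds_iff_eventuallyEq_nhdsNE
    continuousAt_const).1 c).self_of_nhds

/-- division by `φ` -/
theorem Hom.div (h : Hom A G G' φ) (hG : Rc A G) (hZ : ∀ i, ∀ z ∈ ball (0 : ℂ) A.R,
    (A.e i).symm z ∉ Z → IsUnit (φ i z)) (s : Γ A ∞ G') (t : C → ℂ → F)
    (h1 : ∀ x ∈ Z, ContDiffAt ℝ ∞ (t x) (pc A x))
    (h2 : ∀ x ∈ Z, ∀ᶠ z in 𝓝 (pc A x), s.1 (ch A x) z = φ (ch A x) z (t x z)) :
    ∃ u : Γ A ∞ G, h.map ∞ u = s ∧ ∀ i, ∀ z ∈ ball (0 : ℂ) A.R, ∀ x ∈ Z, (A.e i).symm z = x →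
      ∀ᶠ w in 𝓝 z, u.1 i w = G i (ch A x) w (t x (A.tr i (ch A x) w)) := by
  classical
  let u : Fam A F := fun i z => if (A.e i).symm z ∈ Z then G i (ch A ((A.e i).symm z)) z
    (t ((A.e i).symm z) (pc A ((A.e i).symm z))) else Ring.inverse (φ i z) (s.1 i z)
  have k1 : ∀ i, ∀ z ∈ ball (0 : ℂ) A.R, ∀ x ∈ Z, (A.e i).symm z = x → ∀ᶠ w in 𝓝 z,
      s.1 i w = φ i w (G i (ch A x) w (t x (A.tr i (ch A x) w))) := fun i z a x b c => by
    obtain ⟨p, q⟩ := O_ch a c
    filter_upwards [O_nhds p, (an_tr p).continuousAt.eventually (q ▸ h2 x b)] with w d e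
    rw [h.eq _ _ _ d, ← e, ← s.2.2.1 _ _ _ d]
  have k2 : ∀ i, ∀ z ∈ ball (0 : ℂ) A.R, ∀ x ∈ Z, (A.e i).symm z = x → ∀ᶠ w in 𝓝 z,
      u i w = G i (ch A x) w (t x (A.tr i (ch A x) w)) := fun i z a x b c => by
    filter_upwards [k1 i z a x b c, ev_notMem (i := i) Z a, isOpen_ball.mem_nhds a] with w d e f
    by_cases g : (A.e i).symm w ∈ Z
    · obtain rfl := e g
      simp only [u, c, b, if_true, (O_ch a c).2]
    · simp only [u, g, if_false]
      rw [d, inv_app (hZ i w f g)]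
  have k3 : ∀ i, ∀ z ∈ ball (0 : ℂ) A.R, φ i z (u i z) = s.1 i z := fun i z a => by
    by_cases g : (A.e i).symm z ∈ Z
    · rw [(k2 i z a _ g rfl).self_of_nhds, (k1 i z a _ g rfl).self_of_nhds]
    · simp only [u, g, if_false]
      exact app_inv (hZ i z a g) _
  have k4 : A.Sm ∞ u := fun i z a => ContDiffAt.contDiffWithinAt <| by
    by_cases g : (A.e i).symm z ∈ Z
    · obtain ⟨p, q⟩ := O_ch (i := i) a rfl
      exact (cd_app (hG.sm _ _ _ p) (ContDiffAt.comp z (q ▸ h1 _ g)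
        (cd_an (an_tr p)))).congr_of_eventuallyEq (k2 i z a _ g rfl)
    · refine (cd_app (cd_an (an_inv' (h.hol.an a i) (hZ i z a g)))
        (s.2.1.at a i)).congr_of_eventuallyEq ?_
      filter_upwards [ev_notMem (i := i) Z a] with w e
      exact if_neg fun f => g (e f ▸ f)
  have k5 : SV A G u := fun i j z a => by
    by_cases g : (A.e i).symm z ∈ Z
    · have p := (O_ch (i := i) a.1 rfl).1
      rw [(k2 i z a.1 _ g rfl).self_of_nhds, (k2 j _ (tr_ball a) _ g (symm_tr a)).self_of_nhds,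
        hG.mul i j _ z a p, tr_tr a, mul_apply_eq_comp]
    · rw [← inv_app (hZ i z a.1 g) (u i z), k3 i z a.1, s.2.2.1 i j z a, ← k3 j _ (tr_ball a),
        ← h.eq i j z a, inv_app (hZ i z a.1 g)]
  refine ⟨⟨_, cut_mem k4 k5⟩, Subtype.ext ((h.map ∞ _).2.2.2.ext s.2.2.2 fun i z a => ?_),
    fun i z a x b c => ?_⟩
  · exact (congrArg _ (cut_of u a)).trans (k3 i z a)
  · filter_upwards [k2 i z a x b c, cut_ev (i := i) u a] with w d e using e.trans d

theorem mod_aux (hG : A.Cc G) (hG' : A.Cc G') (h : Hom A G G' φ) (m : C → ℕ)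
    (hZ : ∀ i, ∀ z ∈ ball (0 : ℂ) A.R, (A.e i).symm z ∉ Z → IsUnit (φ i z))
    (hm : ∀ x ∈ Z, analyticOrderAt (fun z => (φ (ch A x) z).det) (pc A x) = m x) :
    chi A G' = chi A G + ∑ x ∈ Z, m x ∧ h1 A G' ≤ h1 A G := by
  have := idx_mod (fh_D hG) (fh_D hG') (h.map ∞) (h.bar.map ∞) (h.D_map hG hG') (W0_sup hG Z)
    (W0_sup hG' Z) (h.inj hZ ∞) (h.bar.inj hZ ∞) (fun s a i z b c =>
      (a i z b c).mono fun w d => (congrArg (φ i w) d).trans (map_zero _)) (fun s hs => ?_)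
    (cod_VL hG' Z _ (fun x => φ (ch A x)) m rfl fun x a => ⟨h.hol.an (pc_ball x) _, hm x a⟩)
    fun s => ⟨fun a => ?_, ?_⟩
  · rwa [index_D, index_D, range_D, range_D] at this
  · obtain ⟨u, p, q⟩ := h.bar.div (rc_of hG).bar hZ s (fun _ _ => 0) (fun _ _ => contDiffAt_const)
      fun x a => (hs _ _ (pc_ball x) (by rwa [symm_pc])).mono fun w b => b.trans (map_zero _).symm
    exact ⟨u, fun i z a b => (q i z a _ b rfl).mono fun w c => c.trans (map_zero _), p⟩
  · choose! t p q using a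
    obtain ⟨u, r, r'⟩ := h.div (rc_of hG) hZ s.1 t (fun x b => cd_an (p x b)) q
    refine ⟨u, (mem_V0 hG).2 fun i z b c => ?_, r⟩
    obtain ⟨d, e⟩ := O_ch (i := i) b rfl
    exact (an_app (hG.an d) ((p _ c).comp_of_eq (an_tr d) e)).congr
      (EventuallyEq.symm (r' i z b _ c rfl))
  · rintro ⟨u, p, q⟩ x a
    exact ⟨_, (mem_V0 hG).1 p _ _ (pc_ball x) (by rwa [symm_pc]),
      Eventually.of_forall fun _ => by rw [← q]; rfl⟩

theorem cc_dt (hG : A.Cc G) : A.Cc (dt A G) where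
  hol _ _ _ h := (an_dt (hG.an h)).differentiableAt.differentiableWithinAt
  one i z h := by rw [dt, hG.one i z h, det_one']
  mul i j k z h h' := by rw [dt, hG.mul i j k z h h', det_mul', dt, dt]

/-- **generically isomorphic bundles** -/
theorem modif [PreconnectedSpace C] (hG : A.Cc G) (hG' : A.Cc G') (h : Hom A G G' φ)
    (hz : z ∈ ball (0 : ℂ) A.R) (h0 : (φ i z).det ≠ 0) :
    (chi A G' : ℝ) - dg A G' = chi A G - dg A G ∧ h1 A G' ≤ h1 A G := by
  have c := (cc_dt hG').tens (cc_dt hG).dual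
  have hh : A.Hl fun i z => (φ i z).det := fun i z a =>
    (an_dt (h.hol.an a i)).differentiableAt.differentiableWithinAt
  have M := Sec.mero (s := fun i z => (φ i z).det) (fun i j z a => by
    have : φ i z * G i j z = G' i j z * φ j (A.tr i j z) := ContinuousLinearMap.ext (h.eq i j z a)
    have := congrArg ContinuousLinearMap.det this
    rw [det_mul', det_mul'] at this
    rw [smul_eq_mul, mul_right_comm, dt, ← this]
    exact (mul_inv_cancel_right₀ ((cc_dt hG).ne a) _).symm)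
    hh c hz h0
  set m := A.od fun i z => (φ i z).det
  have o : ∀ x, analyticOrderAt (fun z => (φ (ch A x) z).det) (pc A x) = (m x).toNat := fun x => by
    have p := M.ord (ch A x) _ (pc_ball x)
    rw [symm_pc, (hh.an (pc_ball x) _).meromorphicOrderAt_eq] at p
    generalize analyticOrderAt (fun z => (φ (ch A x) z).det) (pc A x) = q at p
    cases q with
    | top => simp at p
    | coe n => rw [show m x = n from (WithTop.coe_injective p).symm, Int.toNat_natCast]
  obtain ⟨a, b⟩ := mod_aux (Z := M.fin.toFinset) hG hG' h (fun x => (m x).toNat)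
    (fun i z a b => (isUnit_iff_det _).2 ((M.eq_zero_iff hh a).1 (by simpa using b))) fun x _ => o x
  refine ⟨?_, b⟩
  have d := M.deg c
  rw [deg_tens (cc_dt hG') (cc_dt hG).dual, deg_dual (cc_dt hG), finsum_eq_sum _ M.fin] at d
  rw [a, dg, dg, Nat.cast_sum, Finset.sum_congr rfl fun x _ => Int.toNat_of_nonneg (M.nonneg hh x)]
  push_cast at d ⊢
  linarith

end same

end Vale.Agent.P275RR
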