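import Vale.Agent.P275RR.Ex
import Vale.Agent.P275CT.Weyl
import Vale.Agent.P275GC.St
import Vale.Agent.P267.H285.Riesz

/-!
# P275, block RR: the parametrix of `∂̄`
-/

set_option linter.unusedSectionVars false

open scoped Topology ComplexConjugate ContDiff
open Set Filter Metric MeasureTheory Complex Module

noncomputable section

namespace Vale.Agent.P275RR

open Vale.Agent.P281Z.Hm Vale.Agent.P275GC Vale.Agent.P275GC.At Vale.Agent.P275NA
open Vale.Agent.P275FR (K3 lf rt p1 p1_le cont_p1 p1_rt cont_lf lf_val rt_of)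
open Vale.Agent.P275CT (cT_cont cT_cd db_cT cT_bound cT_holder cT_add cT_eq cK_smul wk_db
  wk_congr wk_mono weyl approx db_cont db_cs db_ts hC cs_of)

variable {C : Type} [TopologicalSpace C] {A : At C}
variable {F F' : Type} [NormedAddCommGroup F] [NormedSpace ℝ F] [NormedSpace ℂ F]
  [IsScalarTower ℝ ℂ F] [NormedAddCommGroup F'] [NormedSpace ℝ F'] [NormedSpace ℂ F']
  [IsScalarTower ℝ ℂ F'] {i j : Fin A.N} {z : ℂ} {G : Co A (F →L[ℂ] F)} {K : Set ℂ}

variable (A F) in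
/-- the Banach space of all continuous families -/
abbrev Y : Type := Fin A.N → C(K3, F)

/-- restriction to the unit discs -/
def rs (s : Fam A F) (h : A.Ct s) : Y A F := fun i =>
  ⟨fun z => s i (p1 z), (h i).comp_continuous cont_p1 fun z => mem_of_le (p1_le z)⟩

theorem lf_rs {s : Fam A F} (h : A.Ct s) (hz : ‖z‖ ≤ 1) : lf (rs s h i) z = s i z :=
  congrArg (s i) (p1_rt hz)

variable (G) in
/-- restriction to the unit discs -/
def rsL : Γ A 0 G →ₗ[ℂ] Y A F where
  toFun s := rs s.1 s.2.1.ct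
  map_add' _ _ := rfl
  map_smul' _ _ := rfl

theorem lf_rsL (s : Γ A 0 G) (hz : ‖z‖ ≤ 1) : lf (rsL G s i) z = s.1 i z := lf_rs s.2.1.ct hz

theorem norm_lf (u : C(K3, F)) (z : ℂ) : ‖lf u z‖ ≤ ‖u‖ := u.norm_coe_le_norm _

theorem lf_of {u : C(K3, F)} {g : ℂ → F} (h : ∀ z : K3, u z = g z) (hz : ‖z‖ ≤ 3) :
    lf u z = g z := by rw [lf, h, rt_of hz]

theorem norm_rs_le {s : Fam A F} (h : A.Ct s) {M : ℝ} (h0 : 0 ≤ M)
    (hM : ∀ i z, ‖z‖ ≤ 1 → ‖s i z‖ ≤ M) : ‖rs s h‖ ≤ M :=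
  (pi_norm_le_iff_of_nonneg h0).2 fun i => (ContinuousMap.norm_le _ h0).2 fun z =>
    hM i _ (p1_le z)

theorem le_norm_rs {s : Fam A F} (h : A.Ct s) (hz : ‖z‖ ≤ 1) : ‖s i z‖ ≤ ‖rs s h‖ := by
  rw [← lf_rs h hz]
  exact (norm_lf _ z).trans (norm_le_pi_norm _ i)

variable (A) in
/-- `∂̄ s = f` in the weak sense -/
def WDb (s f : Fam A F) : Prop := ∀ i, Wk (ball 0 1) (s i) (f i)

theorem ball_sub : ball (0 : ℂ) 1 ⊆ ball 0 A.R := ball_subset_ball A.hR.le

theorem IsDb.wdb {s f : Fam A F} (h : IsDb A s f) (hs : A.Sm 1 s) : WDb A s f := fun i =>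
  wk_congr (wk_db isOpen_ball ((hs i).mono ball_sub)) (fun _ _ => rfl)
    fun z a => (h i z (ball_sub a)).symm

theorem wk_closed (U : Set ℂ) : IsClosed {p : C(K3, F) × C(K3, F) | Wk U (lf p.1) (lf p.2)} := by
  have key : ∀ φ : ℂ → ℂ, Continuous φ → HasCompactSupport φ →
      Continuous fun u : C(K3, F) => ∫ z, φ z • lf u z := fun φ a b => by
    have hi : ∀ u : C(K3, F), Integrable fun z => φ z • lf u z := fun u =>
      (a.smul (cont_lf u)).integrable_of_hasCompactSupport b.smul_right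
    refine (LipschitzWith.of_dist_le' (K := ∫ z, ‖φ z‖) fun u v => ?_).continuous
    rw [dist_eq_norm, dist_eq_norm, ← integral_sub (hi u) (hi v), ← integral_mul_const]
    refine norm_integral_le_of_norm_le ((a.integrable_of_hasCompactSupport b).norm.mul_const _)
      (Eventually.of_forall fun z => ?_)
    rw [← smul_sub, norm_smul]
    exact mul_le_mul_of_nonneg_left (norm_lf (u - v) z) (norm_nonneg _)
  simp only [Wk, ofPred_forall]
  exact isClosed_iInter fun φ => isClosed_iInter fun a => isClosed_iInter fun b =>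
    isClosed_iInter fun _ => isClosed_eq ((key _ (db_cont a) (db_cs b)).comp continuous_fst)
      ((key _ a.continuous b).comp continuous_snd).neg

theorem dense_sm : Dense {u : C(K3, F) | ∃ g : ℂ → F, ContDiff ℝ ∞ g ∧ ∀ z : K3, u z = g z} := by
  refine Metric.dense_iff.2 fun u r hr => ?_
  obtain ⟨s, hs⟩ := approx (cont_lf u)
  obtain ⟨n, hn⟩ := exists_nat_one_div_lt hr
  refine ⟨⟨fun z => s n z, (hs n).1.continuous.comp continuous_subtype_val⟩, ?_, s n, (hs n).1,
    fun _ => rfl⟩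
  rw [mem_ball, dist_eq_norm]
  refine lt_of_le_of_lt ((ContinuousMap.norm_le _ (by positivity)).2 fun z => ?_) hn
  have := (hs n).2.1 z
  rwa [lf_val] at this

theorem out_unit {E : Type} [Zero E] {f : ℂ → E} (h : ∀ z, 1 < ‖z‖ → f z = 0) (z : ℂ)
    (a : z ∉ closedBall (0 : ℂ) 1) : f z = 0 := h z (not_le.1 fun b => a (mem_closedBall_zero_iff.2 b))

theorem cT_smul (c : ℂ) (g : ℂ → F) (z : ℂ) : cT (fun x => c • g x) z = c • cT g z := by
  simp only [cT_eq]
  rw [cK_smul, smul_comm]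

theorem exists_T [FiniteDimensional ℂ F] {γ : ℂ → ℂ} (hγ : Continuous γ)
    (h0 : ∀ z, 1 < ‖z‖ → γ z = 0) : ∃ L : C(K3, F) →L[ℂ] C(K3, F), IsCompactOperator L ∧
      ∀ u z, L u z = cT (fun w => γ w • lf u w) z := by
  have := FiniteDimensional.proper ℂ F
  obtain ⟨M, hM⟩ := hγ.bounded_above_of_compact_support (cs_of h0)
  have M0 : 0 ≤ M := (norm_nonneg _).trans (hM 0)
  have c : ∀ u : C(K3, F), Continuous fun w => γ w • lf u w := fun u => hγ.smul (cont_lf u)
  have s : ∀ (u : C(K3, F)) z, 1 < ‖z‖ → γ z • lf u z = 0 := fun u z a => by rw [h0 z a, zero_smul]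
  have b : ∀ (u : C(K3, F)) z, ‖γ z • lf u z‖ ≤ M * ‖u‖ := fun u z => by
    rw [norm_smul]; exact mul_le_mul (hM z) (norm_lf u z) (norm_nonneg _) M0
  let L0 : C(K3, F) →ₗ[ℂ] C(K3, F) :=
    { toFun := fun u => ⟨fun z => cT (fun w => γ w • lf u w) z,
        (cT_cont (c u) (cs_of (s u))).comp continuous_subtype_val⟩
      map_add' := fun u v => by
        ext z
        have := cT_add (c u) (cs_of (s u)) (c v) (cs_of (s v)) z
        simpa [lf, smul_add] using this
      map_smul' := fun a u => by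
        ext z
        have := cT_smul a (fun w => γ w • lf u w) z
        simpa [lf, smul_comm a] using this }
  have hL : ∀ u, ‖L0 u‖ ≤ 3 * 1 * M * ‖u‖ := fun u =>
    (ContinuousMap.norm_le _ (by positivity)).2 fun z => by
      rw [mul_assoc]; exact cT_bound one_pos (s u) (b u) z
  refine ⟨L0.mkContinuous _ hL, P275FR.compact_of_holder _ (Real.pi⁻¹ * hC 1 * M)
    fun u x y => ?_, fun _ _ => rfl⟩
  have := cT_holder (c u) one_pos (s u) (b u) x y
  rw [Subtype.dist_eq, dist_eq_norm, mul_assoc _ M]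
  exact this

variable [T2Space C]

theorem ex_mem0 (hG : Rc A G) {a : ℂ → ℂ} {u : ℂ → F} (ha : Continuous a) (hK : IsCompact K)
    (hR : K ⊆ ball 0 A.R) (h0 : ∀ z, z ∉ K → a z = 0) (hu : Continuous u) :
    ex A G j (fun w => a w • u w) ∈ Γ A 0 G :=
  ex_mem (k := 0) hG hK hR (fun z _ b => by rw [h0 z b, zero_smul])
    (contDiffOn_zero.2 (ha.smul hu).continuousOn)

theorem exists_EX (hG : Rc A G) (j : Fin A.N) {a : ℂ → ℂ} (ha : Continuous a) (hK : IsCompact K)
    (hR : K ⊆ ball 0 A.R) (h0 : ∀ z, z ∉ K → a z = 0) : ∃ L : C(K3, F) →L[ℂ] Y A F,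
      ∀ u i z, L u i z = ex A G j (fun w => a w • lf u w) i (p1 z) := by
  let m : Fam A (F →L[ℂ] F) := fun i => (A.O i j).indicator fun z => a (A.tr i j z) • G i j z
  have hm : A.Ct m := fun i => (cd_ind (k := 0) (f := fun z => a (A.tr i j z) • G i j z) hK hR
    (fun z _ b => by rw [h0 _ b, zero_smul])
    fun z b => contDiffAt_zero.2 ⟨_, O_nhds b, fun w c => ((ha.continuousAt.comp
      (an_tr c).continuousAt).smul (hG.sm i j w c).continuousAt).continuousWithinAt⟩).continuousOn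
  obtain ⟨M, M0, hM⟩ := hm.bdd A.hR
  let L0 : C(K3, F) →ₗ[ℂ] Y A F :=
    { toFun := fun u => rsL G ⟨_, ex_mem0 (j := j) hG ha hK hR h0 (cont_lf u)⟩
      map_add' := fun u v => by
        rw [← map_add]
        refine congrArg _ (Subtype.ext ?_)
        simp only [Submodule.coe_add, ← ex_add, ← smul_add]
        rfl
      map_smul' := fun c u => by
        rw [← map_smul]
        refine congrArg _ (Subtype.ext ?_)
        simp only [Submodule.coe_smul, ← ex_smul, smul_comm c, RingHom.id_apply]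
        rfl }
  refine ⟨L0.mkContinuous M fun u => ?_, fun _ _ _ => rfl⟩
  refine norm_rs_le (ex_mem0 (j := j) hG ha hK hR h0 (cont_lf u)).1.ct (by positivity)
    fun i z hz => ?_
  have e : ex A G j (fun w => a w • lf u w) i z = m i z (lf u (A.tr i j z)) := by
    by_cases b : z ∈ A.O i j
    · simp only [m, ex_O b, indicator_of_mem b, map_smul, _root_.smul_apply]
    · simp only [m, ex_not b, indicator_of_notMem b, _root_.zero_apply]
  exact e ▸ ((m i z).le_opNorm _).trans (mul_le_mul (hM i z hz) (norm_lf u _) (norm_nonneg _) M0)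

/-- the complex valued cut-off functions -/
def eC (A : At C) (j : Fin A.N) (z : ℂ) : ℂ := A.η j z

theorem cd_eC (j : Fin A.N) : ContDiff ℝ ∞ (eC A j) := ofRealCLM.contDiff.comp (cd_η j)

theorem eC_out (j : Fin A.N) (z : ℂ) (h : 1 < ‖z‖) : eC A j z = 0 := by
  rw [eC, η_zero h.le, ofReal_zero]

theorem cd1_eC (j : Fin A.N) : ContDiff ℝ 1 (eC A j) := (cd_eC j).of_le (by simp)

theorem IsDb.sum {ι : Type} (t : Finset ι) {s f : ι → Fam A F} (h : ∀ a, IsDb A (s a) (f a))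
    (hs : ∀ a, A.Sm 1 (s a)) : IsDb A (∑ a ∈ t, s a) (∑ a ∈ t, f a) := fun i z b => by
  rw [Finset.sum_apply, Finset.sum_apply, Finset.sum_apply, Finset.sum_fn,
    wb_sum t fun a _ => (hs a).df one_ne_zero b i]
  exact Finset.sum_congr rfl fun a _ => h a i z b

variable [FiniteDimensional ℂ F]

local instance cplF : CompleteSpace F := FiniteDimensional.complete ℂ F

/-- the lemma of Weyl on the curve -/
theorem WDb.reg (hG : A.Cc G) {s f : Fam A F} (h : WDb A s f) (hs : s ∈ Γ A 0 G) {k : ℕ∞}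
    (hk : 1 ≤ k) (hf : f ∈ Γ A k (bar A G)) : s ∈ Γ A k G ∧ IsDb A s f := by
  have w := fun i => (weyl F _ _ _ isOpen_ball ((hs.1.ct i).mono ball_sub)
    ((hf.1.ct i).mono ball_sub) (h i)).2 k hk ((hf.1 i).mono ball_sub)
  have a : A.Sm k s := hs.2.1.sm_of_unit (rc_of hG) fun i z b =>
    (w i).1.contDiffAt (isOpen_ball.mem_nhds (mem_ball_zero_iff.2 b))
  exact ⟨⟨a, hs.2⟩, fun i z b => (sv_db hG (a.of_le (mod_cast hk)) hs.2.1).ext hf.2.1
    (fun i z c => (w i).2 z (mem_ball_zero_iff.2 c)) b⟩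

theorem WDb.hol (hG : A.Cc G) {s : Fam A F} (h : WDb A s 0) (hs : s ∈ Γ A 0 G) : s ∈ H0 A G :=
  have a := h.reg hG hs (k := 1) le_rfl (zero_mem _)
  mem_H0 a.1 a.2

/-- the parametrix -/
theorem par0 (hG : A.Cc G) : ∃ (P : Y A F → Γ A 0 G) (Gl Kt : Y A F → Γ A 0 (bar A G))
    (PY GY KY : Y A F →L[ℂ] Y A F), IsCompactOperator KY ∧ IsCompactOperator PY ∧
    (∀ u, PY u = rsL G (P u)) ∧ (∀ u, GY u = rsL _ (Gl u)) ∧ (∀ u, KY u = rsL _ (Kt u)) ∧
    (∀ f, Gl (rsL _ f) = f) ∧ ∀ u, WDb A (P u).1 (Gl u + Kt u).1 := by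
  have r := rc_of hG
  have cb := isCompact_closedBall (0 : ℂ) 1
  have o1 := fun j => out_unit (eC_out (A := A) j)
  have o2 : ∀ j z, z ∉ closedBall (0 : ℂ) 1 → db (eC A j) z = 0 := fun j =>
    out_unit (P275FR.Sup.db (eC_out j))
  have o3 : ∀ j z, z ∉ closedBall (0 : ℂ) 1 → eC A j z * eC A j z = 0 := fun j z a => by
    rw [o1 j z a, zero_mul]
  have c1 := fun j => (cd_eC (A := A) j).continuous
  have c2 := fun j => db_cont (cd1_eC (A := A) j)
  choose T hT hT' using fun j => exists_T (F := F) (c1 j) (eC_out j)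
  choose E1 hE1 using fun j => exists_EX r j (c1 j) cb A.unit_sub (o1 j)
  choose E2 hE2 using fun j => exists_EX r.bar j ((c1 j).mul (c1 j)) cb A.unit_sub (o3 j)
  choose E3 hE3 using fun j => exists_EX r.bar j (c2 j) cb A.unit_sub (o2 j)
  let pj : Fin A.N → Y A F →L[ℂ] C(K3, F) := fun j => ContinuousLinearMap.proj j
  let P : Y A F → Γ A 0 G := fun u => ∑ j, ⟨_, ex_mem0 (j := j) r (c1 j) cb A.unit_sub (o1 j)
    (cont_lf (T j (u j)))⟩
  let Gl : Y A F → Γ A 0 (bar A G) := fun u => ∑ j, ⟨_, ex_mem0 (j := j) r.bar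
    ((c1 j).mul (c1 j)) cb A.unit_sub (o3 j) (cont_lf (u j))⟩
  let Kt : Y A F → Γ A 0 (bar A G) := fun u => ∑ j, ⟨_, ex_mem0 (j := j) r.bar (c2 j) cb
    A.unit_sub (o2 j) (cont_lf (T j (u j)))⟩
  let PY : Y A F →L[ℂ] Y A F := ∑ j, E1 j ∘L T j ∘L pj j
  let GY : Y A F →L[ℂ] Y A F := ∑ j, E2 j ∘L pj j
  let KY : Y A F →L[ℂ] Y A F := ∑ j, E3 j ∘L T j ∘L pj j
  have eP : ∀ u, PY u = rsL G (P u) := fun u => by
    simp only [PY, P, map_sum, _root_.sum_apply]
    exact Finset.sum_congr rfl fun j _ => funext fun i => ContinuousMap.ext fun z => hE1 j _ i z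
  have eG : ∀ u, GY u = rsL _ (Gl u) := fun u => by
    simp only [GY, Gl, map_sum, _root_.sum_apply]
    exact Finset.sum_congr rfl fun j _ => funext fun i => ContinuousMap.ext fun z => hE2 j _ i z
  have eK : ∀ u, KY u = rsL _ (Kt u) := fun u => by
    simp only [KY, Kt, map_sum, _root_.sum_apply]
    exact Finset.sum_congr rfl fun j _ => funext fun i => ContinuousMap.ext fun z => hE3 j _ i z
  refine ⟨P, Gl, Kt, PY, GY, KY, P275FR.compact_sum _ _ fun j _ =>
    ((hT j).comp_clm (pj j)).clm_comp (E3 j), P275FR.compact_sum _ _ fun j _ =>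
    ((hT j).comp_clm (pj j)).clm_comp (E1 j), eP, eG, eK, fun f => ?_, fun u i => ?_⟩
  · refine Subtype.ext ((Gl _).2.2.2.ext f.2.2.2 fun i z h => ?_)
    rw [← sum_ex f.2.2.1 h]
    simp only [Gl, Submodule.coe_sum, Finset.sum_apply]
    refine Finset.sum_congr rfl fun j _ => congrFun₂ (ex_congr fun w _ => ?_) i z
    by_cases b : 1 < ‖w‖
    · rw [Pi.mul_apply, eC_out j w b, χ_zero b.le, zero_mul, ofReal_zero, zero_smul, zero_smul]
    · rw [Pi.mul_apply, lf_rsL f (not_lt.1 b), χ, sq,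
        ofReal_mul, eC]
  · have cl : IsClosed {u : Y A F | Wk (ball 0 1) (lf (PY u i)) (lf ((GY + KY) u i))} :=
      (wk_closed (ball 0 1)).preimage (f := fun u : Y A F => (PY u i, (GY + KY) u i)) (by fun_prop)
    have tr : ∀ u, Wk (ball 0 1) (lf (PY u i)) (lf ((GY + KY) u i)) ↔
        Wk (ball 0 1) ((P u).1 i) ((Gl u + Kt u).1 i) := fun u => by
      have a : EqOn (lf (PY u i)) ((P u).1 i) (ball 0 1) := fun z b => by
        rw [eP]; exact lf_rsL _ (mem_ball_zero_iff.1 b).le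
      have b : EqOn (lf ((GY + KY) u i)) ((Gl u + Kt u).1 i) (ball 0 1) := fun z b => by
        rw [_root_.add_apply, eG, eK, ← map_add]; exact lf_rsL _ (mem_ball_zero_iff.1 b).le
      exact ⟨fun h => wk_congr h a.symm b.symm, fun h => wk_congr h a b⟩
    refine (tr u).1 ((dense_pi univ fun _ _ => dense_sm (F := F)).induction (fun v hv => ?_) cl u)
    choose g hg hg' using fun j => hv j (mem_univ j)
    have e0 : ∀ j, (fun w => eC A j w • lf (v j) w) = fun w => eC A j w • g j w := fun j =>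
      funext fun w => by
        by_cases b : 1 < ‖w‖
        · rw [eC_out j w b, zero_smul, zero_smul]
        · rw [lf_of (hg' j) (by linarith)]
    have s0 : ∀ j, ContDiff ℝ 1 fun w => eC A j w • g j w := fun j =>
      (cd1_eC j).smul ((hg j).of_le (by simp))
    have k0 : ∀ j, HasCompactSupport fun w => eC A j w • g j w := fun j =>
      (cs_of (eC_out j)).smul_right
    have t0 : ∀ j, ContDiff ℝ 1 (cT fun w => eC A j w • g j w) := fun j => cT_cd (n := 1) (s0 j) (k0 j)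
    have e1 : ∀ j (a : ℂ → ℂ), (∀ z, z ∉ closedBall (0 : ℂ) 1 → a z = 0) → ∀ w,
        a w • lf (T j (v j)) w = a w • cT (fun w => eC A j w • g j w) w := fun j a ha w => by
      by_cases b : w ∈ closedBall (0 : ℂ) 1
      · rw [lf_of (hT' j (v j)) ((mem_closedBall_zero_iff.1 b).trans (by norm_num)), e0]
      · rw [ha w b, zero_smul, zero_smul]
    have z1 : ∀ j, ∀ z ∈ ball (0 : ℂ) A.R, z ∉ closedBall (0 : ℂ) 1 →
        eC A j z • cT (fun w => eC A j w • g j w) z = 0 := fun j z _ b => by rw [o1 j z b, zero_smul]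
    have s1 := fun j => ((cd1_eC (A := A) j).smul (t0 j)).contDiffOn (s := ball 0 A.R)
    have m1 := fun j => ex_mem (j := j) (k := 1) r cb A.unit_sub (z1 j) (s1 j)
    have d := (IsDb.sum Finset.univ (fun j => db_ex (j := j) hG cb A.unit_sub (z1 j) (s1 j))
      fun j => (m1 j).1).wdb (sum_mem fun j _ => m1 j : _ ∈ Γ A 1 G).1
    refine (tr v).2 (wk_congr (d i) (fun z _ => ?_) fun z _ => ?_)
    · simp only [P, Submodule.coe_sum, Finset.sum_apply]
      exact Finset.sum_congr rfl fun j _ => congrFun₂ (ex_congr fun w _ => e1 j _ (o1 j) w) i z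
    · simp only [Gl, Kt, Submodule.coe_add, Submodule.coe_sum, Finset.sum_apply, Pi.add_apply,
        ← Finset.sum_add_distrib]
      refine Finset.sum_congr rfl fun j _ => ?_
      refine (congrFun₂ ex_add i z).symm.trans (congrFun₂ (ex_congr fun w _ => ?_) i z)
      rw [e1 j _ (o2 j), Pi.mul_apply, mul_smul, congrFun (e0 j) w, add_comm]
      refine Eq.trans ?_ (wb_smul ((cd1_eC j).differentiable one_ne_zero w)
        ((t0 j).differentiable one_ne_zero w) 1).symm
      rw [show wb 1 (cT fun w => eC A j w • g j w) w = _ from congrFun (db_cT (s0 j) (k0 j)) w]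

/-- solvability of `∂̄ s = f` under finitely many continuous linear conditions -/
theorem par (hG : A.Cc G) : ∃ (n : ℕ) (Λ : Y A F →L[ℂ] (Fin n → ℂ)) (Q : Y A F →L[ℂ] Y A F),
    IsCompactOperator Q ∧ ∀ f : Γ A 0 (bar A G), Λ (rsL _ f) = 0 →
      ∃ s : Γ A 0 G, WDb A s.1 f.1 ∧ rsL _ s = Q (rsL _ f) := by
  obtain ⟨P, Gl, Kt, PY, GY, KY, hK, hP, eP, eG, eK, hGl, hW⟩ := par0 hG
  obtain ⟨m, Pi, S, hS, fd⟩ := P267.H285.exists_riesz (-KY) hK.neg
  let e := (Module.finBasis ℂ (LinearMap.range (Pi : Y A F →ₗ[ℂ] Y A F))).equivFun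
  refine ⟨_, e.toContinuousLinearEquiv.toContinuousLinearMap ∘L
    Pi.codRestrict _ fun u => ⟨u, rfl⟩, PY ∘L S, hP.comp_clm S, fun f hf => ⟨P (S (rsL _ f)), ?_,
    (eP _).symm⟩⟩
  have h0 : Pi (rsL _ f) = 0 := congrArg Subtype.val (e.map_eq_zero_iff.1 hf)
  have h1 : S (rsL _ f) + KY (S (rsL _ f)) = rsL _ f := by
    simpa [h0] using hS.TS (rsL _ f)
  have h2 : rsL _ (Gl (S (rsL _ f)) + Kt (S (rsL _ f))) = rsL _ f := by
    rw [map_add, ← eG, ← hGl (Kt _), ← eG, ← eK, ← map_add, h1, eG, hGl]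
  have h3 := congrArg Gl h2
  rw [hGl, hGl] at h3
  have := hW (S (rsL _ f))
  rwa [h3] at this

variable (G) in
/-- restriction of smooth forms -/
def rsS : Γ A ∞ G →ₗ[ℂ] Y A F := rsL G ∘ₗ Submodule.inclusion (Γ_mono (by simp))

theorem par' (hG : A.Cc G) : ∃ (n : ℕ) (Λ : Y A F →L[ℂ] (Fin n → ℂ)),
    ∀ f : Γ A ∞ (bar A G), Λ (rsS _ f) = 0 → f.1 ∈ B1 A G := by
  obtain ⟨n, Λ, Q, -, h⟩ := par hG
  refine ⟨n, Λ, fun f hf => ?_⟩
  obtain ⟨s, a, -⟩ := h _ hf
  exact ⟨s, a.reg hG s.2 (k := ⊤) le_top f.2⟩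

/-- **finiteness of `H^1`** -/
theorem fin_H1 (hG : A.Cc G) : FiniteDimensional ℂ (H1 A G) := by
  obtain ⟨n, Λ, h⟩ := par' hG
  let L := (Λ : Y A F →ₗ[ℂ] (Fin n → ℂ)) ∘ₗ rsS (bar A G)
  have : FiniteDimensional ℂ (_ ⧸ LinearMap.ker L) := L.quotKerEquivRange.symm.finiteDimensional
  exact Module.Finite.of_surjective (Submodule.factor (p := LinearMap.ker L) fun f a => h f a)
    (Submodule.factor_surjective _)

end Vale.Agent.P275RR
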