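import Vale.Agent.P275RR.Par

/-!
# P275, block RR: Serre duality
-/

set_option linter.unusedSectionVars false

open scoped Topology ComplexConjugate ContDiff
open Set Filter Metric MeasureTheory Complex Module

noncomputable section

namespace Vale.Agent.P275RR

open Vale.Agent.P281Z.Hm Vale.Agent.P275GC Vale.Agent.P275GC.At Vale.Agent.P275NA
open Vale.Agent.P275FR (K3 lf rt p1 p1_le cont_p1 p1_rt cont_lf lf_val rt_of cont_rt)
open Vale.Agent.P275CT (cT_cont cT_cd db_cT cT_db cT_close cT_eq cK_eq approx db_cont db_cs db_ts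
  cs_of ex_cutC db_one wk_congr cont_cut cd_cut cs_cut db_cut int_cut_congr)

variable {C : Type} [TopologicalSpace C] {A : At C}
variable {F F' : Type} [NormedAddCommGroup F] [NormedSpace ℝ F] [NormedSpace ℂ F]
  [IsScalarTower ℝ ℂ F] [NormedAddCommGroup F'] [NormedSpace ℝ F'] [NormedSpace ℂ F']
  [IsScalarTower ℝ ℂ F'] {i j : Fin A.N} {z : ℂ} {G : Co A (F →L[ℂ] F)} {K : Set ℂ}
  {G' : Co A (F' →L[ℂ] F')} {B : F' →L[ℂ] F →L[ℂ] ℂ} {σ : Fam A F'} {s f : Fam A F}

theorem wk_of_smooth [CompleteSpace F] {u : ℂ → F} (hu : Continuous u) (cu : HasCompactSupport u)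
    {r : ℝ} (hr : 1 < r) (h : ∀ φ : ℂ → ℂ, ContDiff ℝ ∞ φ → tsupport φ ⊆ closedBall 0 r →
      ∫ z, db φ z • u z = 0) : Wk (ball 0 1) u 0 := fun φ hφ cφ sφ => by
  obtain ⟨β, b1, b2, -, b4, b5⟩ := ex_cutC 0 (r := (1 + r) / 2) (R := r) (by linarith) (by linarith)
  have b6 : ContDiff ℝ 1 β := b1.of_le (by simp)
  obtain ⟨M, hM⟩ := (db_cont b6).bounded_above_of_compact_support (db_cs b2)
  have M0 : 0 ≤ M := (norm_nonneg _).trans (hM 0)
  obtain ⟨ψ, hψ⟩ := approx (db_cont hφ)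
  have o : ∀ z, 1 ≤ ‖z‖ → z ∉ tsupport φ := fun z a b => (mem_ball_zero_iff.1 (sφ b)).not_ge a
  have o1 : ∀ z, 1 < ‖z‖ → db φ z = 0 := fun z a =>
    image_eq_zero_of_notMem_tsupport fun b => o z a.le (db_ts φ b)
  have o2 : ∀ n z, 1 < ‖z‖ → ψ n z = 0 := fun n z a => (hψ n).2.2 z (o1 z a)
  have iu := hu.integrable_of_hasCompactSupport (μ := volume) cu
  simp only [Pi.zero_apply, smul_zero, integral_zero, neg_zero]
  refine norm_le_zero_iff.1 (ge_of_tendsto' (x := atTop) (f := fun n : ℕ =>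
    (M * 3 + 1) * (∫ z, ‖u z‖) * (1 / ((n : ℝ) + 1))) ?_ fun n => ?_)
  · simpa using (tendsto_one_div_add_atTop_nhds_zero_nat (𝕜 := ℝ)).const_mul
      ((M * 3 + 1) * ∫ z, ‖u z‖)
  have t : ContDiff ℝ ∞ (cT (ψ n)) := cT_cd (n := ⊤) (hψ n).1 (cs_of (o2 n))
  have t1 : ContDiff ℝ 1 fun z => β z • cT (ψ n) z := (b1.smul t).of_le (by simp)
  have e := h (fun z => β z • cT (ψ n) z) (b1.smul t) (b5 ▸ tsupport_smul_subset_left _ _)
  rw [← sub_zero (∫ z, db φ z • u z), ← e, ← integral_sub (f := fun z => db φ z • u z)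
    (g := fun z => db (fun z => β z • cT (ψ n) z) z • u z) (((db_cont hφ).smul hu).integrable_of_hasCompactSupport cu.smul_left)
    (((db_cont t1).smul hu).integrable_of_hasCompactSupport cu.smul_left), mul_right_comm,
    ← integral_const_mul]
  refine norm_integral_le_of_norm_le (iu.norm.const_mul _) (Eventually.of_forall fun z => ?_)
  rw [← sub_smul, norm_smul]
  refine mul_le_mul_of_nonneg_right ?_ (norm_nonneg _)
  have c := cT_close (hψ n).1.continuous (db_cont hφ) one_pos (o2 n) o1 (hψ n).2.1 z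
  rw [cT_db hφ cφ] at c
  have d : db β z * φ z = 0 := by
    by_cases a : 1 ≤ ‖z‖
    · rw [image_eq_zero_of_notMem_tsupport (o z a), mul_zero]
    · rw [db_one b4 (mem_ball_zero_iff.2 (by linarith)), zero_mul]
  have d' : β z * ψ n z = ψ n z := by
    by_cases a : 1 < ‖z‖
    · rw [o2 n z a, mul_zero]
    · rw [b4 z (mem_closedBall_zero_iff.2 (by linarith)), one_mul]
  have e' : db φ z - db (fun z => β z • cT (ψ n) z) z =
      -(db β z * (cT (ψ n) z - φ z)) - (ψ n z - db φ z) := by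
    rw [db_cut isOpen_univ b6 (subset_univ _) (t.of_le (by simp)).contDiffOn,
      db_cT ((hψ n).1.of_le (by simp)) (cs_of (o2 n)), smul_eq_mul, smul_eq_mul, d', mul_sub, d]
    ring
  rw [e', add_mul]
  refine (norm_sub_le _ _).trans (add_le_add ?_ (by rw [one_mul]; exact (hψ n).2.1 z))
  rw [norm_neg, norm_mul, mul_assoc]
  exact mul_le_mul (hM z) (by simpa using c) (norm_nonneg _) M0

theorem SD.dn (h : SD A B G' G) (hσ : SV A G' σ) (hf : SV A (bar A G) f) :
    A.Dn fun i z => B (σ i z) (f i z) := dn_iff.2 fun i j z a => by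
  beta_reduce
  rw [hσ i j z a, hf i j z a, bar_apply, map_smul, h.eq i j z a, smul_eq_mul, smul_eq_mul]
  ring

theorem SD.f10 (h : SD A B G' G) (hσ : SV A G' σ) (hs : SV A G s) :
    A.F10 fun i z => B (σ i z) (s i z) := fun i j z a => by
  beta_reduce
  rw [hσ i j z a, hs i j z a, h.eq i j z a, smul_eq_mul]

theorem ct_pr (hσ : A.Ct σ) (hf : A.Ct f) : A.Ct fun i z => B (σ i z) (f i z) := fun i =>
  (B.continuous.comp_continuousOn (hσ i)).clm_apply (hf i)

theorem SD.flip [FiniteDimensional ℂ F] [FiniteDimensional ℂ F'] (h : SD A B G' G) :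
    SD A B.flip G G' := by
  refine ⟨?_, fun i j z a x y => h.eq i j z a y x⟩
  have e : ∀ (E : Type) [NormedAddCommGroup E] [NormedSpace ℂ E] [FiniteDimensional ℂ E],
      finrank ℂ (E →L[ℂ] ℂ) = finrank ℂ E := fun E _ _ _ =>
    (LinearMap.toContinuousLinearMap (𝕜 := ℂ) (E := E) (F' := ℂ)).finrank_eq.symm.trans
      Subspace.dual_finrank_eq
  have a : Function.Injective B.flip := (injective_iff_map_eq_zero _).2 fun x hx =>
    SeparatingDual.eq_zero_of_forall_dual_eq_zero (R := ℂ) fun L => by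
      obtain ⟨y, rfl⟩ := h.bij.2 L
      exact congrArg (fun T : F' →L[ℂ] ℂ => T y) hx
  refine ⟨a, (LinearMap.injective_iff_surjective_of_finrank_eq_finrank
    (f := (B.flip : F →ₗ[ℂ] F' →L[ℂ] ℂ)) ?_).1 a⟩
  rw [e, ← e F, (LinearEquiv.ofBijective (B : F' →ₗ[ℂ] F →L[ℂ] ℂ) h.bij).finrank_eq]

variable [T2Space C]

variable (B G G') in
/-- the pairing as a bilinear map -/
def prL : Γ A 0 G' →ₗ[ℂ] Γ A 0 (bar A G) →ₗ[ℂ] ℂ :=
  LinearMap.mk₂ ℂ (fun σ f => pr A B σ.1 f.1)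
    (fun σ τ f => by
      rw [pr, pr, pr, ← int_add (ct_pr σ.2.1.ct f.2.1.ct).in (ct_pr τ.2.1.ct f.2.1.ct).in]
      simp only [Submodule.coe_add, Pi.add_apply, map_add, _root_.add_apply])
    (fun c σ f => by
      rw [pr, pr, ← int_smul]
      simp only [Submodule.coe_smul, Pi.smul_apply, map_smul, _root_.smul_apply])
    (fun σ f g => by
      rw [pr, pr, pr, ← int_add (ct_pr σ.2.1.ct f.2.1.ct).in (ct_pr σ.2.1.ct g.2.1.ct).in]
      simp only [Submodule.coe_add, Pi.add_apply, map_add])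
    fun c σ f => by
      rw [pr, pr, ← int_smul]
      simp only [Submodule.coe_smul, Pi.smul_apply, map_smul]

theorem int_loc' {u : Fam A ℂ} {v : ℂ → ℂ} (hu : A.Dn u) (hc : A.Ct u)
    (h0 : ∀ i z, z ∉ A.O i j → u i z = 0) (hK : IsCompact K) (hR : K ⊆ ball 0 A.R)
    (e : ∀ z ∈ ball (0 : ℂ) A.R, u j z = v z) (h1 : ∀ z, z ∉ K → v z = 0) :
    A.int u = ∫ z, v z := by
  rw [int_loc hu (fun i z _ => h0 i z) ((hc.integ j hK hR).of_forall_sdiff_eq_zero
    isOpen_ball.measurableSet fun z a => (e z a.1).trans (h1 z a.2)),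
    setIntegral_congr_fun isOpen_ball.measurableSet e]
  exact setIntegral_eq_integral_of_forall_compl_eq_zero fun z a => h1 z fun b => a (hR b)

theorem pr_ex (h : SD A B G' G) (hG : Rc A G) (hσ : σ ∈ Γ A 0 G') {u : ℂ → F} (hK : IsCompact K)
    (hR : K ⊆ ball 0 A.R) (h0 : ∀ z, z ∉ K → u z = 0) (hu : Continuous u) :
    pr A B σ (ex A (bar A G) j u) = ∫ z, B (σ j z) (u z) :=
  int_loc' (h.dn hσ.2.1 (sv_ex hG.bar)) (ct_pr hσ.1.ct (ex_mem (k := 0) hG.bar hK hR
    (fun z _ => h0 z) (contDiffOn_zero.2 hu.continuousOn)).1.ct)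
    (fun i z a => by rw [ex_not a, map_zero]) hK hR (fun z a => by rw [ex_self hG.bar a])
    fun z a => by rw [h0 z a, map_zero]

theorem pr_ex' (h : SD A B G' G) (hG : Rc A G') (hf : f ∈ Γ A 0 (bar A G)) {u : ℂ → F'}
    (hK : IsCompact K) (hR : K ⊆ ball 0 A.R) (h0 : ∀ z, z ∉ K → u z = 0) (hu : Continuous u) :
    pr A B (ex A G' j u) f = ∫ z, B (u z) (f j z) :=
  int_loc' (h.dn (sv_ex hG) hf.2.1) (ct_pr (ex_mem (k := 0) hG hK hR
    (fun z _ => h0 z) (contDiffOn_zero.2 hu.continuousOn)).1.ct hf.1.ct)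
    (fun i z a => by rw [ex_not a, map_zero, _root_.zero_apply]) hK hR
    (fun z a => by rw [ex_self hG a]) fun z a => by rw [h0 z a, map_zero, _root_.zero_apply]

/-- the pairing is nondegenerate on the left -/
theorem pr_inj (h : SD A B G' G) (hG : Rc A G) (hσ : σ ∈ Γ A 0 G')
    (h0 : ∀ f ∈ Γ A ∞ (bar A G), pr A B σ f = 0) : σ = 0 := by
  refine hσ.2.2.ext (fun _ _ _ => rfl) fun i z hz => h.bij.1 ?_
  ext v
  have c : ContinuousOn (fun z => B (σ i z) v) (ball 0 A.R) :=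
    (B.continuous.comp_continuousOn (hσ.1.ct i)).clm_apply continuousOn_const
  have a := isOpen_ball.ae_eq_zero_of_integral_contDiff_smul_eq_zero (μ := volume)
    (c.locallyIntegrableOn isOpen_ball.measurableSet) fun φ p q r => by
      have o : ∀ z, z ∉ tsupport φ → φ z • v = 0 := fun z a => by
        rw [image_eq_zero_of_notMem_tsupport a, zero_smul]
      rw [← h0 _ (ex_mem (j := i) (k := ⊤) hG.bar q r (fun z _ => o z)
        (p.smul contDiff_const).contDiffOn), pr_ex h hG hσ q r o (p.continuous.smul continuous_const)]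
      simp only [rsmul, map_smul]
  have b : EqOn (fun z => B (σ i z) v) (fun _ => 0) (ball 0 A.R) :=
    Measure.eqOn_open_of_ae_eq (μ := volume) ((ae_restrict_iff' isOpen_ball.measurableSet).2 a)
      isOpen_ball c continuousOn_const
  simpa using b hz

variable [FiniteDimensional ℂ F] [FiniteDimensional ℂ F']

attribute [local instance] cplF

/-- Stokes -/
theorem pr_db (h : SD A B G' G) (hσ : σ ∈ H0 A G') (hs : s ∈ Γ A 1 G) (hf : IsDb A s f) :
    pr A B σ f = 0 := by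
  have a : ∀ i, ∀ z ∈ ball (0 : ℂ) A.R, AnalyticAt ℂ (fun z => B (σ i z)) z := fun i z b =>
    (B.analyticAt _).comp (hσ.1.an b i)
  rw [← (h.f10 hσ.2.1 hs.2.1).int_db fun i z b =>
    (cd_app (cd_an (a i z b)) (hs.1.at b i)).contDiffWithinAt]
  exact int_congr' fun i z b => by
    rw [← hf i z b]
    exact (wb_app_hol (a i z b).differentiableAt (hs.1.df one_ne_zero b i)).symm

theorem exists_S : ∃ S : C(K3, ℂ) →L[ℂ] F →L[ℂ] C(K3, F), ∀ a v z, S a v z = a z • v := by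
  let S0 : C(K3, ℂ) →ₗ[ℂ] F →ₗ[ℂ] C(K3, F) := LinearMap.mk₂ ℂ
    (fun a v => ⟨fun z => a z • v, a.continuous.smul continuous_const⟩)
    (fun a b v => by ext z; simp [add_smul]) (fun c a v => by ext z; simp [mul_smul])
    (fun a v w => by ext z; simp) fun c a v => by ext z; simp [smul_comm c]
  refine ⟨S0.mkContinuous₂ 1 fun a v => (ContinuousMap.norm_le _ (by positivity)).2 fun z => ?_,
    fun _ _ _ => rfl⟩
  rw [one_mul]
  exact (norm_smul (a z) v).le.trans (mul_le_mul_of_nonneg_right (a.norm_coe_le_norm z)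
    (norm_nonneg _))

theorem loc_rep (hG : A.Cc G) (hB : Function.Bijective B) (L : Y A F →L[ℂ] ℂ)
    (h0 : ∀ f : Γ A ∞ (bar A G), f.1 ∈ B1 A G → L (rsS _ f) = 0) (j : Fin A.N) :
    ∃ τ : ℂ → F', Continuous τ ∧ ∀ (g : ℂ → F) (f : Γ A ∞ (bar A G)), ContDiff ℝ ∞ g →
      (∀ z, 1 < ‖z‖ → g z = 0) → f.1 = ex A (bar A G) j g → L (rsS _ f) = ∫ z, B (τ z) (g z) := by
  have r := rc_of hG
  obtain ⟨r3, a3, c3⟩ := exists_between (lt_min A.hR (by norm_num : (1 : ℝ) < 3))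
  obtain ⟨r2, a2, c2⟩ := exists_between a3
  obtain ⟨r1, a1, c1⟩ := exists_between a2
  have R3 : closedBall (0 : ℂ) r3 ⊆ ball 0 A.R := closedBall_subset_ball (lt_min_iff.1 c3).1
  have R2 : closedBall (0 : ℂ) r2 ⊆ ball 0 A.R := (closedBall_subset_closedBall c2.le).trans R3
  obtain ⟨β, b1, b2, -, b4, b5⟩ := ex_cutC 0 (one_pos.trans a1) c1
  obtain ⟨γ, g1, g2, -, g4, g5⟩ := ex_cutC 0 (one_pos.trans a2) c2
  have b6 : ContDiff ℝ 1 β := b1.of_le (by simp)
  have b7 : ∀ z, z ∉ closedBall (0 : ℂ) r2 → β z = 0 := fun z a =>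
    image_eq_zero_of_notMem_tsupport (b5 ▸ a)
  have b8 : ∀ z, z ∉ closedBall (0 : ℂ) r2 → db β z = 0 := fun z a =>
    image_eq_zero_of_notMem_tsupport fun b => a (b5 ▸ db_ts β b)
  have g7 : ∀ z, z ∉ closedBall (0 : ℂ) r3 → γ z = 0 := fun z a =>
    image_eq_zero_of_notMem_tsupport (g5 ▸ a)
  obtain ⟨E, hE⟩ := exists_EX r.bar j g1.continuous (isCompact_closedBall 0 r3) R3 g7
  obtain ⟨S, hS⟩ := exists_S (F := F)
  have ck : Continuous fun q : ℂ × K3 => db β q.2 * ((q.2 : ℂ) - p1 (rt q.1))⁻¹ := by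
    refine continuous_iff_continuousAt.2 fun q => ?_
    have c0 : Continuous fun q : ℂ × K3 => (q.2 : ℂ) := by fun_prop
    by_cases a : (q.2 : ℂ) ∈ ball (0 : ℂ) r1
    · refine (continuousAt_const (y := (0 : ℂ))).congr ?_
      filter_upwards [c0.continuousAt.eventually (isOpen_ball.mem_nhds a)] with w b
      rw [db_one b4 b, zero_mul]
    · refine ((db_cont b6).comp c0).continuousAt.mul ((c0.sub (cont_p1.comp (cont_rt.comp
        continuous_fst))).continuousAt.inv₀ (sub_ne_zero.2 fun b => a ?_))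
      exact mem_ball_zero_iff.2 (((congrArg norm b).le.trans (p1_le _)).trans_lt a1)
  let κ : C(ℂ, C(K3, ℂ)) := ContinuousMap.curry ⟨_, ck⟩
  let e := (LinearEquiv.ofBijective (B : F' →ₗ[ℂ] F →L[ℂ] ℂ) hB).toContinuousLinearEquiv
  let M : C(K3, F) →L[ℂ] ℂ := (-(Real.pi : ℂ)⁻¹) • L ∘L E
  refine ⟨fun ξ => e.symm (M ∘L S (κ ξ)), e.symm.continuous.comp
    (continuous_const.clm_comp (S.continuous.comp κ.continuous)), fun g f hg og ef => ?_⟩
  have e1 : ∀ ξ, B (e.symm (M ∘L S (κ ξ))) = M ∘L S (κ ξ) := fun ξ => e.apply_symm_apply _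
  have cg := cs_of og
  have iΦ : Integrable fun ξ => S (κ ξ) (g ξ) :=
    ((S.continuous.comp κ.continuous).clm_apply hg.continuous).integrable_of_hasCompactSupport
      (cg.mono fun ξ a b => a (by simp [b]))
  have t : ContDiff ℝ ∞ (cT g) := cT_cd (n := ⊤) hg cg
  have e2 : ∀ z : K3, (∫ ξ, S (κ ξ) (g ξ)) z = (Real.pi : ℂ) • db β z • cT g z := fun z => by
    rw [cT_eq, smul_comm, smul_inv_smul₀ P275CT.pi_ne, cK_eq, ← integral_smul]
    refine ((ContinuousMap.evalCLM ℂ z).integral_comp_comm iΦ).symm.trans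
      (integral_congr_ae (Eventually.of_forall fun ξ => ?_))
    by_cases a : 1 < ‖ξ‖
    · simp [og ξ a]
    · show S (κ ξ) (g ξ) z = _
      rw [hS, smul_smul, ← p1_rt (not_lt.1 a)]
      simp only [p1_rt (not_lt.1 a)]
      congr 2
      show db β z * (_ - p1 (rt ξ))⁻¹ = _
      rw [p1_rt (not_lt.1 a)]
  have z1 : ∀ z ∈ ball (0 : ℂ) A.R, z ∉ closedBall (0 : ℂ) r2 → db β z • cT g z = 0 :=
    fun z _ a => by rw [b8 z a, zero_smul]
  have z2 : ∀ z ∈ ball (0 : ℂ) A.R, z ∉ closedBall (0 : ℂ) r2 → β z • cT g z = 0 :=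
    fun z _ a => by rw [b7 z a, zero_smul]
  have m1 := ex_mem (j := j) (k := ⊤) r.bar (isCompact_closedBall 0 r2) R2 z1 fun z _ =>
    ((P275FR.sm_db b1.contDiffAt).smul t.contDiffAt).contDiffWithinAt
  have m2 := ex_mem (j := j) (k := ⊤) r (isCompact_closedBall 0 r2) R2 z2 (b1.smul t).contDiffOn
  have k := h0 (⟨_, m1⟩ + f) ⟨_, m2, fun i z a => by
    rw [db_ex hG (isCompact_closedBall 0 r2) R2 z2 ((b1.smul t).of_le (by simp)).contDiffOn i z a,
      Submodule.coe_add, ef, ← ex_add]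
    refine congrFun₂ (ex_congr fun w _ => ?_) i z
    refine (db_cut isOpen_univ b6 (subset_univ _) (t.of_le (by simp)).contDiffOn w).trans ?_
    rw [db_cT (hg.of_le (by simp)) cg]
    by_cases b : 1 < ‖w‖
    · rw [og w b, smul_zero]
    · rw [b4 w (mem_closedBall_zero_iff.2 (by linarith)), one_smul]⟩
  rw [map_add, map_add, add_comm, add_eq_zero_iff_eq_neg] at k
  simp only [e1, ContinuousLinearMap.comp_apply]
  rw [M.integral_comp_comm iΦ, k]
  have e3 : E (∫ ξ, S (κ ξ) (g ξ)) = (Real.pi : ℂ) • rsS _ ⟨_, m1⟩ := by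
    funext i
    ext z
    rw [hE]
    refine (congrFun₂ (ex_congr fun w _ => ?_) i _).trans (congrFun₂ (ex_smul (G := bar A G)
      (j := j) (u := fun z => db β z • cT g z) (Real.pi : ℂ)) i (p1 z))
    by_cases a : w ∈ closedBall (0 : ℂ) r3
    · rw [lf_of (g := fun z => (Real.pi : ℂ) • db β z • cT g z) e2
        ((mem_closedBall_zero_iff.1 a).trans (lt_min_iff.1 c3).2.le)]
      by_cases b : w ∈ closedBall (0 : ℂ) r2
      · rw [g4 w b, one_smul]
      · simp only [b8 w b, zero_smul, smul_zero]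
    · rw [g7 w a, b8 w fun b => a (closedBall_subset_closedBall c2.le b), zero_smul, zero_smul,
        smul_zero]
  simp only [M, _root_.smul_apply, ContinuousLinearMap.comp_apply, e3, map_smul, neg_smul,
    inv_smul_smul₀ P275CT.pi_ne]

theorem sum_ex_mem {k : ℕ∞} (hG : Rc A G) (f : Γ A k G) : ∃ h : ∀ j,
    ex A G j (fun w => (A.χ j w : ℂ) • f.1 j w) ∈ Γ A k G, f = ∑ j, ⟨_, h j⟩ := by
  refine ⟨fun j => ex_mem hG (isCompact_closedBall 0 1) A.unit_sub (fun z _ a => by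
    rw [out_unit (fun z b => χ_zero (A := A) (i := j) b.le) z a, ofReal_zero, zero_smul])
    (((ofRealCLM.contDiff.comp (cd_χ j)).of_le (mod_cast le_top)).contDiffOn.smul (f.2.1 j)),
    Subtype.ext (f.2.2.2.ext (Subtype.prop (p := (· ∈ Γ A k G)) _).2.2 fun i z a => ?_)⟩
  rw [← sum_ex f.2.2.1 a]
  simp only [Submodule.coe_sum, Finset.sum_apply]

theorem cd_χC {k : ℕ∞} {u : ℂ → F} (hu : ContDiffOn ℝ k u (ball 0 A.R)) (j : Fin A.N) :
    ContDiff ℝ k (fun w => (A.χ j w : ℂ) • u w) ∧ ∀ z, 1 < ‖z‖ → (A.χ j z : ℂ) • u z = 0 :=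
  ⟨by simpa only [rsmul] using (cd_χ_smul j hu).1, fun z a => by
    rw [χ_zero a.le, ofReal_zero, zero_smul]⟩

/-- every linear form on `H^1` is given by a holomorphic section -/
theorem exists_rep (hG : A.Cc G) (hG' : A.Cc G') (h : SD A B G' G)
    (lam : Γ A ∞ (bar A G) →ₗ[ℂ] ℂ) (h0 : ∀ f, f.1 ∈ B1 A G → lam f = 0) :
    ∃ σ ∈ H0 A G', ∀ f, lam f = pr A B σ f.1 := by
  have r := rc_of hG
  have r' := rc_of hG'
  obtain ⟨n, Λ, hΛ⟩ := par' hG
  let L := (Λ : Y A F →ₗ[ℂ] (Fin n → ℂ)) ∘ₗ rsS (bar A G)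
  obtain ⟨μ, hμ⟩ := LinearMap.exists_extend (((LinearMap.ker L).liftQ lam
    fun f a => h0 f (hΛ f a)) ∘ₗ L.quotKerEquivRange.symm.toLinearMap)
  let L' : Y A F →L[ℂ] ℂ := LinearMap.toContinuousLinearMap μ ∘L Λ
  have e : ∀ f, lam f = L' (rsS _ f) := fun f => by
    have := LinearMap.congr_fun hμ ⟨L f, LinearMap.mem_range_self L f⟩
    simp only [LinearMap.comp_apply, LinearEquiv.coe_coe] at this
    rw [LinearMap.quotKerEquivRange_symm_apply_image] at this
    exact this.symm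
  choose τ cτ hτ using loc_rep hG h.bij L' fun f a => (e f).symm.trans (h0 f a)
  have cb := isCompact_closedBall (0 : ℂ) 1
  have p := fun j => cd_χC (k := 0) (contDiffOn_zero.2 (cτ j).continuousOn) j
  let σ : Γ A 0 G' := ∑ j, ⟨_, ex_mem (j := j) (k := 0) r' cb A.unit_sub
    (fun z _ => out_unit (p j).2 z) (p j).1.contDiffOn⟩
  have e' : ∀ f, lam f = pr A B σ.1 f.1 := fun f => by
    obtain ⟨m, hm⟩ := sum_ex_mem (k := ⊤) r.bar f
    have f0 : f.1 ∈ Γ A 0 (bar A G) := Γ_mono (by simp) f.2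
    refine Eq.trans ?_ (show _ = prL G G' B σ ⟨_, f0⟩ from ?_) (b := ∑ j, ∫ z,
      B ((A.χ j z : ℂ) • τ j z) (f.1 j z))
    · rw [congrArg lam hm, map_sum]
      refine Finset.sum_congr rfl fun j _ => ?_
      have q := cd_χC (k := ⊤) (f.2.1 j) j
      rw [e, hτ j _ _ q.1 q.2 rfl]
      simp only [map_smul, _root_.smul_apply]
    · simp only [σ, map_sum, LinearMap.sum_apply]
      exact Finset.sum_congr rfl fun j _ => (pr_ex' h r' f0 cb A.unit_sub (out_unit (p j).2)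
        (p j).1.continuous).symm
  refine ⟨σ.1, WDb.hol hG' (fun i => ?_) σ.2, e'⟩
  obtain ⟨r2, a2, c2⟩ := exists_between A.hR
  obtain ⟨r1, a1, c1⟩ := exists_between a2
  obtain ⟨β, b1, b2, -, b4, b5⟩ := ex_cutC 0 (one_pos.trans a1) c1
  have R2 : tsupport β ⊆ ball 0 A.R := b5 ▸ closedBall_subset_ball c2
  have R1 : closedBall (0 : ℂ) r1 ⊆ ball 0 A.R := closedBall_subset_ball (c1.trans c2)
  have cu := cont_cut isOpen_ball b1.continuous R2 (σ.2.1.ct i)
  have eu : EqOn (fun z => β z • σ.1 i z) (σ.1 i) (closedBall 0 r1) := fun z a => by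
    simp only [b4 z a, one_smul]
  refine wk_congr (wk_of_smooth cu (cs_cut b2 _) a1 fun φ p1 p2 => ?_)
    (fun z a => (eu (closedBall_subset_closedBall a1.le (ball_subset_closedBall a))).symm)
    fun _ _ => rfl
  have p3 : ContDiff ℝ 1 φ := p1.of_le (by simp)
  have p4 : HasCompactSupport φ := (isCompact_closedBall 0 r1).of_isClosed_subset
    (isClosed_tsupport _) p2
  have p5 : ∀ z, z ∉ closedBall (0 : ℂ) r1 → φ z = 0 := fun z a =>
    image_eq_zero_of_notMem_tsupport fun b => a (p2 b)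
  have p6 : ∀ z, z ∉ closedBall (0 : ℂ) r1 → db φ z = 0 := fun z a =>
    image_eq_zero_of_notMem_tsupport fun b => a (p2 (db_ts φ b))
  refine h.bij.1 (ContinuousLinearMap.ext fun v => ?_)
  have q1 : ∀ z, z ∉ closedBall (0 : ℂ) r1 → db φ z • v = 0 := fun z a => by rw [p6 z a, zero_smul]
  have q2 : ∀ z ∈ ball (0 : ℂ) A.R, z ∉ closedBall (0 : ℂ) r1 → φ z • v = 0 := fun z _ a => by
    rw [p5 z a, zero_smul]
  have m1 := ex_mem (j := i) (k := ⊤) r.bar (isCompact_closedBall 0 r1) R1 (fun z _ => q1 z)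
    fun z _ => ((P275FR.sm_db p1.contDiffAt).smul contDiffAt_const).contDiffWithinAt
  have k := h0 ⟨_, m1⟩ ⟨_, ex_mem (j := i) (k := ⊤) r (isCompact_closedBall 0 r1) R1 q2
    (p1.smul contDiff_const).contDiffOn, fun a z b => by
      rw [db_ex hG (isCompact_closedBall 0 r1) R1 q2 (p3.smul contDiff_const).contDiffOn a z b]
      refine congrFun₂ (ex_congr (v := fun z => db φ z • v) fun w _ => ?_) a z
      rw [wb_smul (p3.differentiable one_ne_zero w) (differentiableAt_const v), wb_const, smul_zero,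
        add_zero]⟩
  rw [e', pr_ex h r σ.2 (isCompact_closedBall 0 r1) R1 q1
    ((db_cont p3).smul continuous_const)] at k
  rw [map_zero, _root_.zero_apply, ← k, int_cut_congr ((db_ts φ).trans p2) eu]
  refine ((B.flip v).integral_comp_comm (P275CT.int_cut isOpen_ball (db_cont p3) (db_cs p4)
    (((db_ts φ).trans p2).trans R1) (σ.2.1.ct i))).symm.trans ?_
  simp only [map_smul, ContinuousLinearMap.flip_apply]

theorem mk_zero {f : Γ A ∞ (bar A G)} : (Submodule.Quotient.mk f : H1 A G) = 0 ↔ f.1 ∈ B1 A G :=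
  Submodule.Quotient.mk_eq_zero _

/-- **Serre duality**: solvability of `∂̄ s = f` -/
theorem serre (hG : A.Cc G) (hG' : A.Cc G') (h : SD A B G' G) (hf : f ∈ Γ A ∞ (bar A G)) :
    f ∈ B1 A G ↔ ∀ σ ∈ H0 A G', pr A B σ f = 0 := by
  refine ⟨fun ⟨s, a, b⟩ σ c => pr_db h c (Γ_mono (by simp) a) b, fun a => ?_⟩
  have : (Submodule.Quotient.mk ⟨f, hf⟩ : H1 A G) = 0 :=
    (Module.forall_dual_apply_eq_zero_iff ℂ _).1 fun μ => by
      obtain ⟨σ, b, c⟩ := exists_rep hG hG' h (μ ∘ₗ Submodule.mkQ _) fun f d => by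
        rw [LinearMap.comp_apply, Submodule.mkQ_apply, mk_zero.2 d, map_zero]
      exact (c ⟨f, hf⟩).trans (a σ b)
  exact mk_zero.1 this

/-- **Serre duality** as an isomorphism -/
theorem exists_serre (hG : A.Cc G) (hG' : A.Cc G') (h : SD A B G' G) :
    ∃ e : H0 A G' ≃ₗ[ℂ] Module.Dual ℂ (H1 A G), ∀ σ f,
      e σ (Submodule.Quotient.mk f) = pr A B σ.1 f.1 := by
  let P : Γ A ∞ (bar A G) →ₗ[ℂ] H0 A G' →ₗ[ℂ] ℂ := ((prL G G' B).compl₁₂
    (Submodule.inclusion (H0_le 0)) (Submodule.inclusion (Γ_mono (by simp)))).flip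
  let Q : H0 A G' →ₗ[ℂ] Module.Dual ℂ (H1 A G) := (Submodule.liftQ _ P fun f a =>
    LinearMap.ext fun σ => (serre hG hG' h f.2).1 a σ.1 σ.2).flip
  refine ⟨LinearEquiv.ofBijective Q ⟨(injective_iff_map_eq_zero _).2 fun σ a => Subtype.ext
    (pr_inj h (rc_of hG) (H0_le 0 σ.2) fun f b => ?_), fun μ => ?_⟩, fun _ _ => rfl⟩
  · exact LinearMap.congr_fun a (Submodule.Quotient.mk ⟨f, b⟩)
  · obtain ⟨σ, b, c⟩ := exists_rep hG hG' h (μ ∘ₗ Submodule.mkQ _) fun f d => by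
      rw [LinearMap.comp_apply, Submodule.mkQ_apply, mk_zero.2 d, map_zero]
    exact ⟨⟨σ, b⟩, Submodule.linearMap_qext _ (LinearMap.ext fun f => (c f).symm)⟩

theorem h1_eq (hG : A.Cc G) (hG' : A.Cc G') (h : SD A B G' G) : h1 A G = h0 A G' := by
  obtain ⟨e, -⟩ := exists_serre hG hG' h
  have := fin_H1 hG
  rw [h0, e.finrank_eq, Subspace.dual_finrank_eq, h1]

/-- **finiteness of `H^0`** -/
theorem fin_H0 (hG : A.Cc G) : FiniteDimensional ℂ (H0 A G) := by
  obtain ⟨e, -⟩ := exists_serre (cc_dk hG) hG (sd_dk hG).flip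
  have := fin_H1 (cc_dk hG)
  exact e.symm.finiteDimensional

end Vale.Agent.P275RR
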